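import Vale.Agent.P150.Fast.Dom.GS
import Vale.Agent.P150.Fast.LLBase

/-!
The orthonormal directions of a sequence of vectors, indexed by natural numbers (P150, module M6
part B).
-/

open MeasureTheory Real Finset
open scoped Matrix

namespace Vale.Agent.P150.Fast.Amp

open LL (nrm nrm_nonneg nrm_sq nrm_add)
open Dom (gs gsRes gsTail)

variable {n M : ℕ} {τ : ℝ}

/-- The directions of the first `M` vectors. -/
noncomputable def dirs (M : ℕ) (τ : ℝ) (W : ℕ → Fin n → ℝ) (c : ℕ) : Fin n → ℝ :=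
  if h : c < M then gs τ (fun i : Fin M => W i) ⟨c, h⟩ else 0

theorem dirs_ok (hτ : 0 < τ) (W : ℕ → Fin n → ℝ) (c : ℕ) :
    dirs M τ W c ⬝ᵥ dirs M τ W c = 1 ∨ dirs M τ W c = 0 := by
  unfold dirs
  split
  · exact Dom.gs_unit hτ _
  · exact Or.inr rfl

theorem dirs_orth (hτ : 0 < τ) (W : ℕ → Fin n → ℝ) {c d : ℕ} (h : c ≠ d) :
    dirs M τ W c ⬝ᵥ dirs M τ W d = 0 := by
  unfold dirs
  split_ifs
  · exact Dom.gs_orth hτ _ _ fun e => h (congrArg Fin.val e)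
  all_goals simp

theorem dirs_congr {W W' : ℕ → Fin n → ℝ} {c : ℕ} (h : ∀ i ≤ c, W i = W' i) :
    dirs M τ W c = dirs M τ W' c := by
  unfold dirs
  split
  · next hc =>
    suffices ∀ k : Fin M, k.1 ≤ c → gs τ (fun i : Fin M => W i) k = gs τ (fun i : Fin M => W' i) k from
      this ⟨c, hc⟩ le_rfl
    intro k
    induction k using WellFoundedLT.induction with
    | _ k ih =>
      intro hk
      have e : gsRes τ (fun i : Fin M => W i) k = gsRes τ (fun i : Fin M => W' i) k := by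
        simp only [gsRes, h k.1 hk]
        congr 1
        exact sum_congr rfl fun b hb => by
          rw [ih b (mem_Iio.1 hb) ((le_of_lt (Fin.lt_def.1 (mem_Iio.1 hb))).trans hk)]
      rw [Dom.gs_eq, Dom.gs_eq, e]
  · rfl

theorem measurable_dirs {α : Type*} [MeasurableSpace α] {W : α → ℕ → Fin n → ℝ}
    (hW : ∀ i, Measurable fun a => W a i) (c : ℕ) : Measurable fun a => dirs M τ (W a) c := by
  unfold dirs
  split
  · exact (Dom.measurable_gs (measurable_pi_lambda (fun a (i : Fin M) => W a i) fun i => hW i) _).1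
  · exact measurable_const

theorem dot_self_eq (u : Fin n → ℝ) : u ⬝ᵥ u = nrm u ^ 2 := by
  rw [nrm_sq]; simp [dotProduct, pow_two]

/-- The length of a combination of directions. -/
theorem dirs_comb (hτ : 0 < τ) (W : ℕ → Fin n → ℝ) (s : Finset ℕ) (a : ℕ → ℝ) :
    nrm (∑ c ∈ s, a c • dirs M τ W c) ^ 2
      = ∑ c ∈ s, a c ^ 2 * (dirs M τ W c ⬝ᵥ dirs M τ W c) := by
  rw [← dot_self_eq, sum_dotProduct]
  refine sum_congr rfl fun c hc => ?_
  rw [dotProduct_sum, Finset.sum_eq_single c]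
  · rw [smul_dotProduct, dotProduct_smul, smul_eq_mul, smul_eq_mul]; ring
  · intro d _ hd
    rw [smul_dotProduct, dotProduct_smul, dirs_orth hτ W (Ne.symm hd), smul_zero, smul_zero]
  · exact fun h => absurd hc h

theorem dirs_comb_le (hτ : 0 < τ) (W : ℕ → Fin n → ℝ) (s : Finset ℕ) (a : ℕ → ℝ) :
    nrm (∑ c ∈ s, a c • dirs M τ W c) ≤ √(∑ c ∈ s, a c ^ 2) := by
  refine le_sqrt_of_sq_le ?_
  rw [dirs_comb hτ]
  refine sum_le_sum fun c _ => ?_
  rcases dirs_ok (M := M) hτ W c with h | h <;> simp [h, sq_nonneg]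

theorem dirs_split (hτ : 0 < τ) (W : ℕ → Fin n → ℝ) (s : Finset ℕ) (v : Fin n → ℝ) :
    v ⬝ᵥ v = ∑ c ∈ s, (dirs M τ W c ⬝ᵥ v) ^ 2
      + nrm (v - ∑ c ∈ s, (dirs M τ W c ⬝ᵥ v) • dirs M τ W c) ^ 2 := by
  set e := dirs M τ W
  set p := ∑ c ∈ s, (e c ⬝ᵥ v) • e c with hp
  have h1 : p ⬝ᵥ v = ∑ c ∈ s, (e c ⬝ᵥ v) ^ 2 := by
    rw [hp, sum_dotProduct]
    exact sum_congr rfl fun c _ => by rw [smul_dotProduct, smul_eq_mul, pow_two]
  have h2 : p ⬝ᵥ p = ∑ c ∈ s, (e c ⬝ᵥ v) ^ 2 := by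
    rw [hp, dot_self_eq, dirs_comb hτ W s fun c => e c ⬝ᵥ v]
    refine sum_congr rfl fun c _ => ?_
    rcases dirs_ok (M := M) hτ W c with h | h <;> simp [e, h]
  rw [← dot_self_eq, sub_dotProduct, dotProduct_sub, dotProduct_sub, dotProduct_comm v p, h1, h2]
  ring

theorem dirs_bessel (hτ : 0 < τ) (W : ℕ → Fin n → ℝ) (s : Finset ℕ) (v : Fin n → ℝ) :
    ∑ c ∈ s, (dirs M τ W c ⬝ᵥ v) ^ 2 ≤ nrm v ^ 2 := by
  rw [← dot_self_eq, dirs_split (M := M) hτ W s v]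
  exact le_add_of_nonneg_right (sq_nonneg _)

theorem dirs_dot_le (hτ : 0 < τ) (W : ℕ → Fin n → ℝ) (c : ℕ) (v : Fin n → ℝ) :
    |dirs M τ W c ⬝ᵥ v| ≤ nrm v := by
  refine abs_le_of_sq_le_sq ?_ (nrm_nonneg v)
  simpa using dirs_bessel (M := M) hτ W {c} v

/-- What is left of vector `j` after the directions up to it. -/
theorem dirs_tail (hτ : 0 < τ) (W : ℕ → Fin n → ℝ) {j : ℕ} (hj : j < M) :
    nrm (W j - ∑ c ∈ range (j + 1), (dirs M τ W c ⬝ᵥ W j) • dirs M τ W c) ≤ τ := by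
  have h := Dom.gsTail_sq (w := fun i : Fin M => W i) hτ ⟨j, hj⟩
  have e : gsTail τ (fun i : Fin M => W i) ⟨j, hj⟩
      = W j - ∑ c ∈ range (j + 1), (dirs M τ W c ⬝ᵥ W j) • dirs M τ W c := by
    rw [gsTail]
    congr 1
    refine sum_bij (fun c _ => c.1) (fun c hc => ?_) (fun a _ b _ h => Fin.ext h) (fun b hb => ?_)
      fun c _ => ?_
    · exact mem_range.2 (Nat.lt_succ_of_le (Fin.le_def.1 (mem_Iic.1 hc)))
    · have hb' := Nat.lt_succ_iff.1 (mem_range.1 hb)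
      exact ⟨⟨b, hb'.trans_lt hj⟩, mem_Iic.2 (Fin.le_def.2 hb'), rfl⟩
    · simp [dirs]
  rw [e, dot_self_eq] at h
  exact le_of_abs_le (abs_le_of_sq_le_sq h hτ.le)

/-- Later directions hardly see an earlier vector. -/
theorem dirs_late (hτ : 0 < τ) (W : ℕ → Fin n → ℝ) {c j : ℕ} (hjc : j < c) :
    |dirs M τ W c ⬝ᵥ W j| ≤ τ := by
  unfold dirs
  split
  · next hc =>
    exact Dom.gs_dot_late (w := fun i : Fin M => W i) hτ (k := ⟨j, hjc.trans hc⟩) (l := ⟨c, hc⟩) hjc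
  · simp [hτ.le]

end Vale.Agent.P150.Fast.Amp
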