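import Vale.Agent.P150.Fast.Amp.Step
import Vale.Agent.P150.Fast.Dom.Rows

/-!
Innovations along adaptively chosen directions (P150, module M6 part B): they are exactly independent
standard vectors, and the matrix is read off them on the directions.
-/

open MeasureTheory Real Finset
open scoped Matrix

namespace Vale.Agent.P150.Fast.Amp

open Dom

variable {n J : ℕ} {κ : Type*}

/-- A rule that chooses the next direction from the earlier innovations. -/
abbrev Sel (n : ℕ) : Type := (k : ℕ) → (Fin k → Fin n → ℝ) → Fin n → ℝ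

/-- The rule after a first innovation. -/
def Sel.next (e : Sel n) (G : Fin n → ℝ) : Sel n := fun k x => e (k + 1) (Fin.cons G x)

/-- A rule whose values are unit vectors or zero. -/
def Sel.Ok (e : Sel n) : Prop := ∀ k x, e k x ⬝ᵥ e k x = 1 ∨ e k x = 0

/-- One more row. -/
def rowJoin (p : (κ → ℝ) × (Fin J × κ → ℝ)) : Fin (J + 1) × κ → ℝ :=
  fun q => Fin.cases (motive := fun _ => ℝ) (p.1 q.2) (fun k => p.2 (k, q.2)) q.1

theorem rowJoin_split (g : Fin (J + 1) × κ → ℝ) : rowJoin (rowSplit g) = g := by
  funext ⟨k, i⟩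
  cases k using Fin.cases <;> simp [rowJoin, rowSplit]

theorem measurable_rowJoin : Measurable (rowJoin (κ := κ) (J := J)) := by
  refine measurable_pi_lambda _ fun q => ?_
  obtain ⟨k, i⟩ := q
  cases k using Fin.cases <;> simp only [rowJoin, Fin.cases_zero, Fin.cases_succ] <;> fun_prop

theorem mp_rowJoin [Fintype κ] : MeasurePreserving (rowJoin (κ := κ) (J := J))
    ((gp κ).prod (gp (Fin J × κ))) (gp (Fin (J + 1) × κ)) := by
  refine ⟨measurable_rowJoin, ?_⟩
  rw [← (mp_rowSplit J).map_eq, Measure.map_map measurable_rowJoin (mp_rowSplit J).measurable]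
  conv_rhs => rw [← Measure.map_id (μ := gp (Fin (J + 1) × κ))]
  exact congrArg (fun f => (gp (Fin (J + 1) × κ)).map f) (funext rowJoin_split)

theorem measurable_cons {β : Type*} [MeasurableSpace β] {k : ℕ} {f : β → Fin n → ℝ}
    {g : β → Fin k → Fin n → ℝ} (hf : Measurable f) (hg : Measurable g) :
    Measurable fun a => (Fin.cons (f a) (g a) : Fin (k + 1) → Fin n → ℝ) :=
  measurable_pi_lambda _ fun c => by
    cases c using Fin.cases with
    | zero => simpa using hf
    | succ c => simpa [Function.comp_def] using (measurable_pi_apply c).comp hg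

/-- The innovations. -/
noncomputable def inn : (J : ℕ) → Sel n → Dis n → (Fin J × (Pair n ⊕ Fin n) → ℝ) → Fin J × Fin n → ℝ
  | 0, _, _, _ => fun _ => 0
  | J + 1, e, d, D =>
    rowJoin (stpG (e 0 Fin.elim0) d (rowSplit D).1,
      inn J (e.next (stpG (e 0 Fin.elim0) d (rowSplit D).1))
        (stpD (e 0 Fin.elim0) d (rowSplit D).1) (rowSplit D).2)

theorem measurable_inn : ∀ (J : ℕ) {α : Type} [MeasurableSpace α] (e : α → Sel n),
    (∀ k, Measurable fun p : α × (Fin k → Fin n → ℝ) => e p.1 k p.2) →
    Measurable fun p : α × Dis n × (Fin J × (Pair n ⊕ Fin n) → ℝ) => inn J (e p.1) p.2.1 p.2.2 := by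
  intro J
  induction J with
  | zero => intro α _ e _; exact measurable_const
  | succ J ih =>
    intro α _ e he
    set A := α × Dis n × (Fin (J + 1) × (Pair n ⊕ Fin n) → ℝ)
    have h0 : Measurable fun p : A => e p.1 0 Fin.elim0 :=
      (he 0).comp (measurable_fst.prodMk measurable_const)
    have hD : Measurable fun p : A => rowSplit p.2.2 :=
      (mp_rowSplit J).measurable.comp (measurable_snd.comp measurable_snd)
    have hG : Measurable fun p : A => stpG (e p.1 0 Fin.elim0) p.2.1 (rowSplit p.2.2).1 :=
      measurable_stpG h0 (measurable_fst.comp measurable_snd) (measurable_fst.comp hD)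
    have hd : Measurable fun p : A => stpD (e p.1 0 Fin.elim0) p.2.1 (rowSplit p.2.2).1 :=
      measurable_stpD h0 (measurable_fst.comp measurable_snd) (measurable_fst.comp hD)
    have h1 := ih (fun b : α × (Fin n → ℝ) => (e b.1).next b.2) fun k =>
      (he (k + 1)).comp ((measurable_fst.comp measurable_fst).prodMk
        (measurable_cons (measurable_snd.comp measurable_fst) measurable_snd))
    exact measurable_rowJoin.comp
      (hG.prodMk (h1.comp ((measurable_fst.prodMk hG).prodMk (hd.prodMk (measurable_snd.comp hD)))))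

/-- **The innovations are independent standard vectors.** -/
theorem mp_inn : ∀ (J : ℕ) (e : Sel n), e.Ok → (∀ k, Measurable (e k)) →
    MeasurePreserving (fun p : Dis n × (Fin J × (Pair n ⊕ Fin n) → ℝ) => inn J e p.1 p.2)
      ((disX n).prod (gp (Fin J × (Pair n ⊕ Fin n)))) (gp (Fin J × Fin n)) := by
  intro J
  induction J with
  | zero =>
    intro e _ _
    refine ⟨measurable_const, ?_⟩
    rw [show (fun p : Dis n × (Fin 0 × (Pair n ⊕ Fin n) → ℝ) => inn 0 e p.1 p.2)
      = fun _ => (fun _ => 0) from rfl, Measure.map_const]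
    have : IsProbabilityMeasure (disX n) := by unfold disX gp; infer_instance
    rw [measure_univ, one_smul, gp, Measure.pi_of_empty _ (fun _ => 0)]
  | succ J ih =>
    intro e hok he
    have h0 := hok 0 Fin.elim0
    set μ := gp (Fin J × (Pair n ⊕ Fin n))
    have s1 : MeasurePreserving (fun p : Dis n × (Fin (J + 1) × (Pair n ⊕ Fin n) → ℝ) =>
        (p.1, rowSplit p.2)) ((disX n).prod (gp (Fin (J + 1) × (Pair n ⊕ Fin n))))
        ((disX n).prod ((disX n).prod μ)) :=
      (MeasurePreserving.id (disX n)).prod (mp_rowSplit J)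
    have s2 : MeasurePreserving (MeasurableEquiv.prodAssoc (α := Dis n) (β := Dis n)
        (γ := Fin J × (Pair n ⊕ Fin n) → ℝ)).symm ((disX n).prod ((disX n).prod μ))
        (((disX n).prod (disX n)).prod μ) :=
      (measurePreserving_prodAssoc (disX n) (disX n) μ).symm _
    have s3 := (step_law h0).prod (MeasurePreserving.id μ)
    have s4 : MeasurePreserving (MeasurableEquiv.prodAssoc (α := Fin n → ℝ) (β := Dis n)
        (γ := Fin J × (Pair n ⊕ Fin n) → ℝ)) (((gp (Fin n)).prod (disX n)).prod μ)
        ((gp (Fin n)).prod ((disX n).prod μ)) := measurePreserving_prodAssoc _ _ _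
    have hm := measurable_inn J (fun G : Fin n → ℝ => e.next G) fun k =>
      (he (k + 1)).comp (measurable_cons measurable_fst measurable_snd)
    have s5 : MeasurePreserving
        (fun p : (Fin n → ℝ) × Dis n × (Fin J × (Pair n ⊕ Fin n) → ℝ) =>
          (id p.1, inn J (e.next p.1) p.2.1 p.2.2))
        ((gp (Fin n)).prod ((disX n).prod μ)) ((gp (Fin n)).prod (gp (Fin J × Fin n))) :=
      (MeasurePreserving.id (gp (Fin n))).skew_product hm (ae_of_all _ fun G =>
        (ih (e.next G) (fun k x => hok _ _) fun k => (he (k + 1)).comp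
          (measurable_cons measurable_const measurable_id)).map_eq)
    exact mp_rowJoin.comp (s5.comp (s4.comp (s3.comp (s2.comp s1))))

/-- The direction chosen at step `k`. -/
def selDir (e : Sel n) (x : Fin J × Fin n → ℝ) (k : Fin J) : Fin n → ℝ :=
  e k.1 fun c i => x (⟨c.1, c.2.trans k.2⟩, i)

theorem selDir_succ (e : Sel n) (G : Fin n → ℝ) (x : Fin J × Fin n → ℝ) (k : Fin J) :
    selDir e (rowJoin (G, x)) k.succ = selDir (e.next G) x k := by
  simp only [selDir, Sel.next, Fin.val_succ]
  congr 1
  funext c i
  cases c using Fin.cases <;> rfl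

theorem selDir_zero (e : Sel n) (x : Fin (J + 1) × Fin n → ℝ) :
    selDir e x 0 = e 0 Fin.elim0 := congrArg (e 0) (funext fun c => Fin.elim0 c)

/-- **The matrix on the directions.** -/
theorem inn_apply : ∀ (J : ℕ) (e : Sel n), e.Ok → ∀ (d : Dis n)
    (D : Fin J × (Pair n ⊕ Fin n) → ℝ),
    (∀ c k, c < k → selDir e (inn J e d D) c ⬝ᵥ selDir e (inn J e d D) k = 0) →
    ∀ k : Fin J, goe n d *ᵥ selDir e (inn J e d D) k
      = (selDir e (inn J e d D) k ⬝ᵥ selDir e (inn J e d D) k) •
        ((fun i => inn J e d D (k, i))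
          + ((√2 - 1) * (selDir e (inn J e d D) k ⬝ᵥ fun i => inn J e d D (k, i))) • selDir e (inn J e d D) k
          + ∑ c ∈ Iio k, ((selDir e (inn J e d D) k ⬝ᵥ fun i => inn J e d D (c, i))
            - selDir e (inn J e d D) c ⬝ᵥ fun i => inn J e d D (k, i)) • selDir e (inn J e d D) c) := by
  intro J
  induction J with
  | zero => intro _ _ _ _ _ k; exact k.elim0
  | succ J ih =>
    intro e hok d D
    set e0 := e 0 Fin.elim0 with he0
    set d' := (rowSplit D).1
    set G := stpG e0 d d'
    set x := inn J (e.next G) (stpD e0 d d') (rowSplit D).2 with hx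
    have hinn : inn (J + 1) e d D = rowJoin (G, x) := rfl
    rw [hinn]
    intro horth k
    have h0 := hok 0 Fin.elim0
    rw [← he0] at h0
    cases k using Fin.cases with
    | zero =>
      rw [selDir_zero, ← he0, show Iio (0 : Fin (J + 1)) = ∅ from Finset.Iio_bot, sum_empty, add_zero]
      simp only [rowJoin, Fin.cases_zero]
      rcases h0 with h | h
      · rw [h, one_smul]; exact stpG_of_unit h d d'
      · simp [h]
    | succ k =>
      have horth' : ∀ c l : Fin J, c < l → selDir (e.next G) x c ⬝ᵥ selDir (e.next G) x l = 0 :=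
        fun c l hcl => by
          rw [← selDir_succ, ← selDir_succ]; exact horth _ _ (Fin.succ_lt_succ_iff.2 hcl)
      have hk := ih (e.next G) (fun k x => hok _ _) (stpD e0 d d') (rowSplit D).2 horth' k
      rw [← hx] at hk
      have hw : e0 ⬝ᵥ selDir (e.next G) x k = 0 := by
        have := horth 0 k.succ k.succ_pos
        rwa [selDir_zero, selDir_succ] at this
      have hc : ∀ c ∈ Iio k, e0 ⬝ᵥ selDir (e.next G) x c = 0 := fun c _ => by
        have := horth 0 c.succ c.succ_pos
        rwa [selDir_zero, selDir_succ] at this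
      rw [selDir_succ, stp_off h0 d d' hw, hk]
      set w := selDir (e.next G) x k with hwd
      have hins : Iio k.succ = insert 0 ((Iio k).map (Fin.succEmb J)) := by
        ext a; cases a using Fin.cases <;> simp
      rw [hins, sum_insert (by simp), sum_map]
      simp only [Fin.coe_succEmb, selDir_succ, selDir_zero, rowJoin, Fin.cases_zero, Fin.cases_succ,
        ← he0]
      set xk : Fin n → ℝ := fun i => x (k, i)
      set S := ∑ c ∈ Iio k, ((w ⬝ᵥ fun i => x (c, i)) - selDir (e.next G) x c ⬝ᵥ xk)
        • selDir (e.next G) x c with hS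
      have hS0 : e0 ⬝ᵥ S = 0 := by
        rw [hS, dotProduct_sum]
        exact sum_eq_zero fun c hc' => by rw [dotProduct_smul, hc c hc', smul_zero]
      rw [dotProduct_smul, dotProduct_add, dotProduct_add, dotProduct_smul, hw, hS0,
        dotProduct_comm G w]
      rcases hok (k.1 + 1) (Fin.cons G fun c i => x (⟨c.1, c.2.trans k.2⟩, i)) with h | h
      · have h' : w ⬝ᵥ w = 1 := h
        rw [h', one_smul, one_smul]
        funext i
        simp only [Pi.add_apply, Pi.smul_apply, smul_eq_mul]
        ring
      · have h' : w = 0 := h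
        simp [h']

end Vale.Agent.P150.Fast.Amp
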