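import Vale.Agent.P150.Fast.LLBase
import Vale.Agent.P150.Fast.GaussTail
import Vale.Agent.P150.Fast.GoeNorm
import Vale.Agent.P150.Fast.Dom.Rows
import Vale.Agent.P150.Fast.Cavity.Gibbs
import Vale.Agent.P150.Edge.Spectral

/-!
Uniform concentration for combinations of a fixed number of standard vectors (P150, module M6 part
B): lengths and averages of Lipschitz functions of the coordinates, uniformly over a box of
coefficients.
-/

open MeasureTheory ProbabilityTheory Real Finset Filter

namespace Vale.Agent.P150.Fast.Amp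

open LL (nrm nrm_nonneg nrm_sq nrm_add)

variable {n M : ℕ}

/-- A box of coefficients. -/
def box (M : ℕ) (B : ℝ) : Set (Fin M → ℝ) := {b | ∀ c, |b c| ≤ B}

theorem box_net (M : ℕ) (B : ℝ) {h : ℝ} (hh : 0 < h) :
    ∃ N : Finset (Fin M → ℝ), (↑N ⊆ box M B) ∧ ∀ b ∈ box M B, ∃ b' ∈ N, ∀ c, |b c - b' c| ≤ h := by
  have hc : IsCompact (box M B) := by
    have : box M B = Set.univ.pi fun _ : Fin M => Set.Icc (-B) B := by
      ext b; simp [box, abs_le, Pi.le_def, forall_and]
    rw [this]
    exact isCompact_univ_pi fun _ => isCompact_Icc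
  obtain ⟨t, ht, hfin, hcov⟩ := finite_cover_balls_of_compact hc hh
  refine ⟨hfin.toFinset, by simpa using ht, fun b hb => ?_⟩
  obtain ⟨b', hb', hd⟩ : ∃ b' ∈ t, b ∈ Metric.ball b' h := by
    simpa only [Set.mem_iUnion, exists_prop] using hcov hb
  exact ⟨b', hfin.mem_toFinset.2 hb', fun c => by
    rw [← Real.dist_eq]; exact (dist_le_pi_dist b b' c).trans (Metric.mem_ball.1 hd).le⟩

/-- A combination of rows. -/
def comb (b : Fin M → ℝ) (z : Fin M × Fin n → ℝ) (i : Fin n) : ℝ := ∑ c, b c * z (c, i)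

/-- The average of a function of the coordinates. -/
noncomputable def avgF (F : ℝ → ℝ) (y : Fin n → ℝ) : ℝ := (∑ i, F (y i)) / n

theorem comb_sub (b : Fin M → ℝ) (z z' : Fin M × Fin n → ℝ) (i : Fin n) :
    comb b z i - comb b z' i = comb b (fun p => z p - z' p) i := by
  simp only [comb, mul_sub, sum_sub_distrib]

theorem comb_nrm_le (b : Fin M → ℝ) (z : Fin M × Fin n → ℝ) :
    nrm (comb b z) ≤ √(∑ c, b c ^ 2) * √(∑ p, z p ^ 2) := by
  rw [nrm, ← sqrt_mul (sum_nonneg fun c _ => sq_nonneg _)]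
  refine sqrt_le_sqrt ?_
  rw [Fintype.sum_prod_type_right, mul_sum]
  exact sum_le_sum fun i _ => sum_mul_sq_le_sq_mul_sq univ b fun c => z (c, i)

theorem abs_sum_le_sqrt (v : Fin n → ℝ) : ∑ i, |v i| ≤ √n * nrm v := by
  have := Real.sum_mul_le_sqrt_mul_sqrt univ (fun _ : Fin n => (1 : ℝ)) fun i => |v i|
  simpa [nrm, sq_abs] using this

theorem avgF_sub_le {F : ℝ → ℝ} {L : ℝ} (hF : ∀ x y, |F x - F y| ≤ L * |x - y|) (hn : 0 < n)
    (y y' : Fin n → ℝ) : |avgF F y - avgF F y'| ≤ L / √n * nrm (fun i => y i - y' i) := by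
  have hn' : (0 : ℝ) < n := by exact_mod_cast hn
  have hL : 0 ≤ L := by simpa using (abs_nonneg _).trans (hF 1 0)
  rw [avgF, avgF, ← sub_div, ← sum_sub_distrib, abs_div, abs_of_pos hn', div_le_iff₀ hn']
  refine (abs_sum_le_sum_abs _ _).trans ((sum_le_sum fun i _ => hF _ _).trans ?_)
  rw [← mul_sum]
  refine (mul_le_mul_of_nonneg_left (abs_sum_le_sqrt _) hL).trans_eq ?_
  field_simp
  rw [sq_sqrt hn'.le]
  ring

theorem integrable_lin_growth {ι : Type} [Fintype ι] {U : (ι → ℝ) → ℝ} {L : ℝ}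
    (hc : Continuous U) (hU : ∀ g, |U g - U 0| ≤ L * √(∑ i, g i ^ 2)) : Integrable U (gp ι) := by
  refine (((Edge.mean_norm_le (ι := ι)).1.const_mul L).add (integrable_const |U 0|)).mono'
    hc.aestronglyMeasurable (ae_of_all _ fun g => ?_)
  rw [Real.norm_eq_abs, Pi.add_apply]
  linarith [hU g, abs_sub_abs_le_abs_sub (U g) (U 0)]

/-- The length of a combination exceeds `√n |b|` with exponentially small probability. -/
theorem nrm_tail (hn : 0 < n) (b : Fin M → ℝ) {C e : ℝ} (hb : √(∑ c, b c ^ 2) ≤ C) (hC : 0 < C)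
    (he : 0 ≤ e) : (gp (Fin M × Fin n)).real {z | √n * (√(∑ c, b c ^ 2) + e) ≤ nrm (comb b z)}
      ≤ exp (-(2 * e ^ 2 * n / (π ^ 2 * C ^ 2))) := by
  have hn' : (0 : ℝ) < n := by exact_mod_cast hn
  have hlip : ∀ z z' : Fin M × Fin n → ℝ,
      |nrm (comb b z) - nrm (comb b z')| ≤ C * √(∑ p, (z p - z' p) ^ 2) := by
    have key : ∀ z z' : Fin M × Fin n → ℝ,
        nrm (comb b z) - nrm (comb b z') ≤ C * √(∑ p, (z p - z' p) ^ 2) := fun z z' => by
      have e1 : comb b z = comb b z' + comb b fun p => z p - z' p := by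
        funext i; rw [Pi.add_apply, ← comb_sub]; ring
      rw [e1]
      linarith [nrm_add (comb b z') (comb b fun p => z p - z' p),
        comb_nrm_le b fun p => z p - z' p,
        mul_le_mul_of_nonneg_right hb (sqrt_nonneg (∑ p, (z p - z' p) ^ 2))]
    exact fun z z' => abs_sub_le_iff.2 ⟨key z z', (key z' z).trans_eq (by
      congr 2; exact sum_congr rfl fun p _ => by ring)⟩
  have hmean : ∫ z, nrm (comb b z) ∂gp (Fin M × Fin n) ≤ √n * √(∑ c, b c ^ 2) := by
    -- the mean of the square is `n |b|²`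
    have hlaw := Dom.map_gp_eq (fun (i : Fin n) (p : Fin M × Fin n) => if p.2 = i then b p.1 else 0)
      (fun (i : Fin n) (j : Fin n) => if j = i then √(∑ c, b c ^ 2) else 0) fun w => by
        rw [Fintype.sum_prod_type_right]
        refine sum_congr rfl fun i _ => ?_
        simp only [mul_ite, mul_zero, sum_ite_eq, mem_univ, if_true, mul_pow, ← mul_sum]
        rw [sq_sqrt (sum_nonneg fun c _ => sq_nonneg _)]
    have e1 : ∀ z : Fin M × Fin n → ℝ,
        Dom.arrMap (fun (i : Fin n) (p : Fin M × Fin n) => if p.2 = i then b p.1 else 0) z = comb b z :=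
      fun z => by funext i; simp [Dom.arrMap_apply, comb, Fintype.sum_prod_type]
    have e2 : ∀ g : Fin n → ℝ,
        Dom.arrMap (fun (i : Fin n) (j : Fin n) => if j = i then √(∑ c, b c ^ 2) else 0) g
          = fun i => √(∑ c, b c ^ 2) * g i :=
      fun g => by funext i; simp [Dom.arrMap_apply]
    have hm : AEStronglyMeasurable nrm ((gp (Fin n)).map (Dom.arrMap
        (fun (i : Fin n) (j : Fin n) => if j = i then √(∑ c, b c ^ 2) else 0))) :=
      (show Continuous (nrm (n := n)) by unfold LL.nrm; fun_prop).aestronglyMeasurable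
    have h := congrArg (fun μ => ∫ y, nrm y ∂μ) hlaw
    simp only [integral_map (Dom.arrMap _).continuous.measurable.aemeasurable
      (show Continuous (nrm (n := n)) by unfold LL.nrm; fun_prop).aestronglyMeasurable, e1, e2] at h
    rw [h]
    have e3 : ∀ g : Fin n → ℝ, nrm (fun i => √(∑ c, b c ^ 2) * g i)
        = √(∑ c, b c ^ 2) * √(∑ i, g i ^ 2) := fun g => by
      simp only [LL.nrm, mul_pow, ← mul_sum]
      rw [sqrt_mul (sq_nonneg _), sqrt_sq (sqrt_nonneg _)]
    simp only [e3, integral_const_mul, mul_comm √(n : ℝ)]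
    refine mul_le_mul_of_nonneg_left ((Edge.mean_norm_le (ι := Fin n)).2.trans_eq ?_) (sqrt_nonneg _)
    rw [Fintype.card_fin]
  have h := gaussTail _ (fun z => nrm (comb b z)) C hC hlip (√n * e) (by positivity)
  refine le_trans (measureReal_mono (fun z hz => ?_) (measure_ne_top _ _)) (h.trans_eq ?_)
  · simp only [Set.mem_ofPred_eq] at hz ⊢; linarith
  · rw [mul_pow, sq_sqrt hn'.le]; ring_nf

/-- The expectation of a function of one coordinate of a combination. -/
theorem mean_comb (b : Fin M → ℝ) (γ : ℝ) {F : ℝ → ℝ} (hF : Continuous F) (i : Fin n) :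
    ∫ z, F (γ + comb b z i) ∂gp (Fin M × Fin n) = nE γ (∑ c, b c ^ 2) F := by
  have hlaw := Dom.map_gp_eq (fun (_ : Fin 1) (p : Fin M × Fin n) => if p.2 = i then b p.1 else 0)
    (fun (_ : Fin 1) (_ : Fin 1) => √(∑ c, b c ^ 2)) fun w => by
      simp only [Fin.sum_univ_one, Fintype.sum_prod_type_right, mul_ite, mul_zero, ite_pow]
      rw [sum_eq_single i (fun j _ hj => by simp [hj]) (by simp)]
      simp only [if_true, mul_pow, ← mul_sum]
      rw [sq_sqrt (sum_nonneg fun c _ => sq_nonneg _)]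
  have hc : Continuous fun y : Fin 1 → ℝ => F (γ + y 0) := by fun_prop
  have h := congrArg (fun μ => ∫ y, F (γ + y 0) ∂μ) hlaw
  simp only [integral_map (Dom.arrMap _).continuous.measurable.aemeasurable hc.aestronglyMeasurable,
    Dom.arrMap_apply, Fin.sum_univ_one, Fintype.sum_prod_type, ite_mul, zero_mul, sum_ite_eq',
    mem_univ, if_true] at h
  simp only [comb]
  rw [h, nE]
  refine (integral_map (measurePreserving_eval (fun _ : Fin 1 => gaussianReal 0 1) 0).measurable.aemeasurable
    (f := fun x : ℝ => F (γ + √(∑ c, b c ^ 2) * x)) (Continuous.aestronglyMeasurable (by fun_prop))).symm.trans ?_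
  rw [gp, (measurePreserving_eval (fun _ : Fin 1 => gaussianReal 0 1) 0).map_eq]

theorem avgF_tail (hn : 0 < n) (b : Fin M → ℝ) {C e L γ : ℝ} (hb : √(∑ c, b c ^ 2) ≤ C) (hC : 0 < C)
    (hL : 0 < L) (he : 0 ≤ e) {F : ℝ → ℝ} (hF : ∀ x y, |F x - F y| ≤ L * |x - y|) :
    (gp (Fin M × Fin n)).real
      {z | e ≤ |avgF F (fun i => γ + comb b z i) - nE γ (∑ c, b c ^ 2) F|}
      ≤ 2 * exp (-(2 * e ^ 2 * n / (π ^ 2 * (L * C) ^ 2))) := by
  have hn' : (0 : ℝ) < n := by exact_mod_cast hn
  set U : (Fin M × Fin n → ℝ) → ℝ := fun z => avgF F fun i => γ + comb b z i with hUd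
  have hFc : Continuous F := (LipschitzWith.of_dist_le_mul (K := L.toNNReal) fun x y => by
    rw [Real.coe_toNNReal _ hL.le, Real.dist_eq, Real.dist_eq]; exact hF x y).continuous
  have hlip : ∀ z z', |U z - U z'| ≤ L * C / √n * √(∑ p, (z p - z' p) ^ 2) := fun z z' => by
    refine (avgF_sub_le hF hn _ _).trans ?_
    simp only [add_sub_add_left_eq_sub, comb_sub]
    rw [mul_div_right_comm L C, mul_assoc]
    exact mul_le_mul_of_nonneg_left ((comb_nrm_le b _).trans
      (mul_le_mul_of_nonneg_right hb (sqrt_nonneg _))) (by positivity)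
  have hint : ∀ i : Fin n, Integrable (fun z => F (γ + comb b z i)) (gp (Fin M × Fin n)) := fun i => by
    refine integrable_lin_growth (L := L * C) (by unfold comb; fun_prop) fun z => (hF _ _).trans ?_
    rw [mul_assoc L C]
    refine mul_le_mul_of_nonneg_left ?_ hL.le
    simp only [add_sub_add_left_eq_sub, comb_sub, Pi.zero_apply, sub_zero]
    refine le_trans ?_ ((comb_nrm_le b z).trans (mul_le_mul_of_nonneg_right hb (sqrt_nonneg _)))
    rw [LL.nrm, ← sqrt_sq_eq_abs]
    exact sqrt_le_sqrt (single_le_sum (f := fun k => comb b z k ^ 2) (fun k _ => sq_nonneg _) (mem_univ i))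
  have hmean : ∫ z, U z ∂gp (Fin M × Fin n) = nE γ (∑ c, b c ^ 2) F := by
    simp only [hUd, avgF, integral_div]
    rw [integral_finsetSum _ fun i _ => hint i]
    simp only [mean_comb b γ hFc, sum_const, card_univ, Fintype.card_fin, nsmul_eq_mul]
    field_simp
  have hLn : 0 < L * C / √n := by positivity
  have h1 := gaussTail _ U _ hLn hlip e he
  have h2 := gaussTail _ (fun z => -U z) _ hLn (fun z z' => by
    rw [← abs_neg]; simpa [sub_eq_add_neg, add_comm] using hlip z z') e he
  rw [hmean] at h1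
  rw [integral_neg, hmean] at h2
  have ee : 2 * e ^ 2 / (π ^ 2 * (L * C / √n) ^ 2) = 2 * e ^ 2 * n / (π ^ 2 * (L * C) ^ 2) := by
    rw [div_pow (L * C), sq_sqrt hn'.le]; field_simp
  rw [ee] at h1 h2
  refine le_trans (measureReal_mono (fun z hz => ?_) (measure_ne_top _ _))
    ((measureReal_union_le _ _).trans ((add_le_add h1 h2).trans_eq (two_mul _).symm))
  simp only [Set.mem_ofPred_eq, Set.mem_union] at hz ⊢
  rcases le_abs.1 hz with h | h
  · left; linarith
  · right; linarith

theorem union_net {α : Type*} [MeasurableSpace α] (μ : Measure α) [IsFiniteMeasure μ] {β : Type*}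
    (T : Finset β) {E : β → Set α} {b : ℝ} (h : ∀ i ∈ T, μ.real (E i) ≤ b) :
    μ.real (⋃ i ∈ T, E i) ≤ T.card * b :=
  (measureReal_biUnion_finset_le _ _).trans ((sum_le_card_nsmul _ _ _ h).trans_eq (nsmul_eq_mul _ _))

theorem nE_var_le {F : ℝ → ℝ} {L : ℝ} (hF : ∀ x y, |F x - F y| ≤ L * |x - y|) (γ γ' v v' : ℝ) :
    |nE γ v F - nE γ' v' F| ≤ L * (|γ - γ'| + |√v - √v'|) := by
  have hL : 0 ≤ L := by simpa using (abs_nonneg _).trans (hF 1 0)
  have hFc : Continuous F := (LipschitzWith.of_dist_le_mul (K := L.toNNReal) fun x y => by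
    rw [Real.coe_toNNReal _ hL, Real.dist_eq, Real.dist_eq]; exact hF x y).continuous
  have hg : Integrable (fun g : ℝ => |g|) (gaussianReal 0 1) := by
    simpa using (integrable_pow_gauss 1).norm
  have hint : ∀ a w : ℝ, Integrable (fun g => F (a + w * g)) (gaussianReal 0 1) := fun a w => by
    refine (((hg.const_mul (L * |w|))).add (integrable_const |F a|)).mono'
      (Continuous.aestronglyMeasurable (by fun_prop)) (ae_of_all _ fun g => ?_)
    rw [Real.norm_eq_abs, Pi.add_apply]
    have h := hF (a + w * g) a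
    rw [add_sub_cancel_left, abs_mul] at h
    linarith [abs_sub_abs_le_abs_sub (F (a + w * g)) (F a)]
  have hg1 : ∫ g : ℝ, |g| ∂gaussianReal 0 1 ≤ 1 := by
    have hm : ∫ x, x ^ 2 ∂gaussianReal 0 1 = (1 : ℝ) := by rw [moment_step 0]; simp
    have hi : Integrable (fun g : ℝ => (1 + g ^ 2) / 2) (gaussianReal 0 1) :=
      ((integrable_const 1).add (integrable_pow_gauss 2)).div_const 2
    refine (integral_mono hg hi fun g => ?_).trans_eq ?_
    · linarith [sq_nonneg (|g| - 1), sq_abs g]
    · rw [integral_div, integral_add (integrable_const _) (integrable_pow_gauss 2), hm]; simp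
  rw [nE, nE, ← integral_sub (hint _ _) (hint _ _)]
  refine (abs_integral_le_integral_abs).trans ?_
  refine (integral_mono ((hint _ _).sub (hint _ _)).abs
    (((integrable_const |γ - γ'|).add (hg.const_mul |√v - √v'|)).const_mul L) fun g => ?_).trans ?_
  · refine (hF _ _).trans (mul_le_mul_of_nonneg_left ?_ hL)
    rw [show γ + √v * g - (γ' + √v' * g) = (γ - γ') + (√v - √v') * g by ring]
    refine (abs_add_le _ _).trans ?_
    simp only [Pi.add_apply, abs_mul, le_refl]
  · rw [integral_const_mul, integral_add' (integrable_const _) (hg.const_mul _), integral_const_mul]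
    simp only [integral_const, probReal_univ, one_smul]
    exact mul_le_mul_of_nonneg_left (by nlinarith [abs_nonneg (√v - √v')]) hL

theorem abs_sqrt_sub_le {v v' : ℝ} (hv : 0 ≤ v) (hv' : 0 ≤ v') : |√v - √v'| ≤ √|v - v'| := by
  refine abs_le_sqrt ?_
  rcases le_total v v' with h | h
  · rw [abs_sub_comm, abs_of_nonneg (sub_nonneg.2 h)]
    nlinarith [mul_self_sqrt hv, mul_self_sqrt hv', sqrt_le_sqrt h, sqrt_nonneg v]
  · rw [abs_of_nonneg (sub_nonneg.2 h)]
    nlinarith [mul_self_sqrt hv, mul_self_sqrt hv', sqrt_le_sqrt h, sqrt_nonneg v']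

/-- **Uniform concentration**: outside an exponentially small event, every combination in the box
has length at most `√n (|b| + ε)`, and the average of `F` along it is near its mean. -/
theorem uniform_conc (M : ℕ) (B L ε : ℝ) (hB : 0 < B) (hL : 0 < L) (hε : 0 < ε) :
    ∃ c : ℝ, 0 < c ∧ ∀ᶠ n : ℕ in atTop, ∀ γ : ℝ, ∀ F : ℝ → ℝ,
      (∀ x y, |F x - F y| ≤ L * |x - y|) →
      (gp (Fin M × Fin n)).real {z | ¬ ∀ b ∈ box M B, nrm (comb b z) ≤ √n * (√(∑ c, b c ^ 2) + ε) ∧
        |avgF F (fun i => γ + comb b z i) - nE γ (∑ c, b c ^ 2) F| ≤ ε} ≤ exp (-(c * n)) := by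
  classical
  set C := M * B + 1 with hC
  have hC0 : 0 < C := by positivity
  set e := min (min (ε / 4) (ε / (4 * L))) 1 with he
  have he0 : 0 < e := by positivity
  set h := e / ((M + 1) * (C + 2)) with hh
  have hh0 : 0 < h := by positivity
  obtain ⟨N, hN, hnet⟩ := box_net M B hh0
  set A : Finset (Fin M → ℝ) := N ∪ Finset.univ.image fun c => Pi.single c 1
  set c1 := 2 * e ^ 2 / (π ^ 2 * C ^ 2) with hc1
  set c2 := 2 * (ε / 4) ^ 2 / (π ^ 2 * (L * C) ^ 2) with hc2
  set c := min c1 c2 / 2 with hc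
  refine ⟨c, by positivity, ?_⟩
  filter_upwards [eventually_le_exp (a := A.card * 3) (c := c) (by positivity),
    eventually_ge_atTop 1] with n hev hn
  intro γ F hF
  have hn' : (0 : ℝ) < n := by exact_mod_cast hn
  have hsz : ∀ b ∈ A, √(∑ k, b k ^ 2) ≤ C := fun b hb => by
    rw [sqrt_le_left hC0.le]
    rcases mem_union.1 hb with hb | hb
    · refine (sum_le_card_nsmul _ _ (B ^ 2) fun k _ => sq_le_sq' (abs_le.1 (hN hb k)).1
        (abs_le.1 (hN hb k)).2).trans ?_
      rw [card_univ, Fintype.card_fin, nsmul_eq_mul, hC]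
      have : (M : ℝ) ≤ M ^ 2 := by exact_mod_cast Nat.le_self_pow two_ne_zero M
      linarith [mul_le_mul_of_nonneg_right this (sq_nonneg B), mul_nonneg (Nat.cast_nonneg M) hB.le]
    · obtain ⟨k, -, rfl⟩ := mem_image.1 hb
      rw [sum_eq_single k (fun j _ hj => by simp [hj]) (by simp)]
      simp only [Pi.single_eq_same, one_pow, hC]
      nlinarith [mul_nonneg (Nat.cast_nonneg M) hB.le]
  set E : (Fin M → ℝ) → Set (Fin M × Fin n → ℝ) := fun b =>
    {z | √n * (√(∑ k, b k ^ 2) + e) ≤ nrm (comb b z)} ∪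
    {z | ε / 4 ≤ |avgF F (fun i => γ + comb b z i) - nE γ (∑ k, b k ^ 2) F|}
  have hE : ∀ b ∈ A, (gp (Fin M × Fin n)).real (E b) ≤ 3 * exp (-(2 * c * n)) := fun b hb => by
    refine (measureReal_union_le _ _).trans ((add_le_add (nrm_tail hn b (hsz b hb) hC0 he0.le)
      (avgF_tail hn b (hsz b hb) hC0 hL (by positivity) hF)).trans ?_)
    have e1 : exp (-(2 * e ^ 2 * n / (π ^ 2 * C ^ 2))) ≤ exp (-(2 * c * n)) := by
      rw [mul_div_right_comm, ← hc1]
      exact exp_le_exp.2 (neg_le_neg (mul_le_mul_of_nonneg_right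
        (by rw [hc]; linarith [min_le_left c1 c2]) hn'.le))
    have e2 : exp (-(2 * (ε / 4) ^ 2 * n / (π ^ 2 * (L * C) ^ 2))) ≤ exp (-(2 * c * n)) := by
      rw [mul_div_right_comm, ← hc2]
      exact exp_le_exp.2 (neg_le_neg (mul_le_mul_of_nonneg_right
        (by rw [hc]; linarith [min_le_right c1 c2]) hn'.le))
    linarith
  refine le_trans (measureReal_mono (fun z hz => ?_) (measure_ne_top _ _))
    ((union_net _ A hE).trans ((le_of_eq (mul_assoc _ _ _).symm).trans hev))
  by_contra hout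
  simp only [Set.mem_iUnion, exists_prop, not_exists, not_and, Set.mem_union, Set.mem_ofPred_eq,
    E, not_or, not_le] at hout
  refine hz fun b hb => ?_
  obtain ⟨b', hb', hd⟩ := hnet b hb
  have hA := hout b' (mem_union_left _ hb')
  set s := ∑ k, |b k - b' k| with hs
  have hs0 : s ≤ M * h := by
    refine (sum_le_card_nsmul _ _ h fun k _ => hd k).trans_eq ?_
    simp
  have hsplit : nrm (fun i => comb b z i - comb b' z i) ≤ √n * (s * (C + 1)) := by
    have e1 : (fun i => comb b z i - comb b' z i)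
        = ∑ k, (b k - b' k) • fun i => z (k, i) := by
      funext i; simp [comb, Finset.sum_apply, sub_mul, sum_sub_distrib]
    rw [e1, hs, sum_mul, mul_sum]
    refine (le_sum_of_subadditive nrm (by simp [LL.nrm]) nrm_add _ _).trans (sum_le_sum fun k _ => ?_)
    have hk := (hout (Pi.single k 1) (mem_union_right _ (mem_image_of_mem _ (mem_univ k)))).1
    have e2 : comb (Pi.single k 1) z = fun i => z (k, i) := by
      funext i; simp [comb, Pi.single_apply]
    rw [e2, sum_eq_single k (fun j _ hj => by simp [hj]) (by simp)] at hk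
    simp only [Pi.single_eq_same, one_pow, sqrt_one] at hk
    have e3 : nrm ((b k - b' k) • fun i => z (k, i)) = |b k - b' k| * nrm (fun i => z (k, i)) := by
      simp only [LL.nrm, Pi.smul_apply, smul_eq_mul, mul_pow, ← mul_sum]
      rw [sqrt_mul (sq_nonneg _), sqrt_sq_eq_abs]
    rw [e3, mul_left_comm]
    refine mul_le_mul_of_nonneg_left (hk.le.trans (mul_le_mul_of_nonneg_left ?_ (sqrt_nonneg _)))
      (abs_nonneg _)
    linarith [min_le_right (min (ε / 4) (ε / (4 * L))) 1, mul_nonneg (Nat.cast_nonneg M) hB.le]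
  have hsn : |√(∑ k, b k ^ 2) - √(∑ k, b' k ^ 2)| ≤ s := by
    have hnr : ∀ w : Fin M → ℝ, nrm w = √(∑ k, w k ^ 2) := fun w => rfl
    have key : ∀ w w' : Fin M → ℝ, nrm w ≤ nrm w' + ∑ k, |w k - w' k| := fun w w' => by
      have h1 := nrm_add w' (w - w')
      rw [add_sub_cancel] at h1
      refine h1.trans (add_le_add le_rfl ?_)
      rw [hnr, sqrt_le_left (sum_nonneg fun k _ => abs_nonneg _)]
      simpa [sq_abs] using sum_sq_le_sq_sum_of_nonneg (s := univ) (f := fun k => |w k - w' k|)
        fun k _ => abs_nonneg _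
    rw [← hnr, ← hnr, abs_sub_le_iff]
    constructor
    · linarith [key b b']
    · have := key b' b
      simp only [fun k => abs_sub_comm (b' k) (b k)] at this
      linarith
  have hse : s * (C + 2) ≤ e := by
    refine (mul_le_mul_of_nonneg_right hs0 (by positivity)).trans ?_
    rw [hh, ← mul_div_assoc, div_mul_eq_mul_div, div_le_iff₀ (by positivity)]
    linarith [mul_pos he0 (show 0 < C + 2 by linarith)]
  have hs1 : 0 ≤ s := sum_nonneg fun k _ => abs_nonneg _
  have hLe : L * e ≤ ε / 4 := by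
    refine (mul_le_mul_of_nonneg_left ((min_le_left _ _).trans (min_le_right _ _)) hL.le).trans_eq ?_
    field_simp
  constructor
  · have h1 : nrm (comb b z) ≤ nrm (comb b' z) + √n * (s * (C + 1)) := by
      refine le_trans (le_of_eq ?_) ((nrm_add (comb b' z) fun i => comb b z i - comb b' z i).trans
        (add_le_add le_rfl hsplit))
      congr 1; funext i; simp
    refine h1.trans ((add_le_add hA.1.le le_rfl).trans ?_)
    rw [← mul_add]
    refine mul_le_mul_of_nonneg_left ?_ (sqrt_nonneg _)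
    linarith [(abs_le.1 hsn).1, (min_le_left _ _).trans' he.le, min_le_left (ε / 4) (ε / (4 * L))]
  · have h1 : |avgF F (fun i => γ + comb b z i) - avgF F (fun i => γ + comb b' z i)|
        ≤ L * (s * (C + 1)) := by
      refine (avgF_sub_le hF hn _ _).trans ?_
      simp only [add_sub_add_left_eq_sub]
      refine (mul_le_mul_of_nonneg_left hsplit (by positivity)).trans_eq ?_
      have := (sqrt_pos.2 hn').ne'
      field_simp
    have h2 : |nE γ (∑ k, b' k ^ 2) F - nE γ (∑ k, b k ^ 2) F| ≤ L * s := by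
      refine (nE_var_le hF _ _ _ _).trans (mul_le_mul_of_nonneg_left ?_ hL.le)
      rw [sub_self, abs_zero, zero_add, abs_sub_comm]
      exact hsn
    have h3 := mul_le_mul_of_nonneg_left hse hL.le
    calc |avgF F (fun i => γ + comb b z i) - nE γ (∑ k, b k ^ 2) F|
        ≤ L * (s * (C + 1)) + ε / 4 + L * s := by
          refine (abs_sub_le _ (avgF F fun i => γ + comb b' z i) _).trans ?_
          refine (add_le_add le_rfl (abs_sub_le _ (nE γ (∑ k, b' k ^ 2) F) _)).trans ?_
          linarith [hA.2]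
      _ ≤ ε := by linarith

end Vale.Agent.P150.Fast.Amp
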