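import Vale.Agent.P150.Fast.Amp.Conc
import Vale.Agent.P150.Fast.Entropy.Scalar

/-!
The Onsager coefficient from the tangent of the average of `log cosh` (P150, module M6 part B).
-/

open MeasureTheory ProbabilityTheory Real Finset

namespace Vale.Agent.P150.Fast.Amp

open LL (nrm nrm_nonneg nrm_sq)

variable {n M : ℕ}

/-- The logarithm of `cosh`. -/
noncomputable def lc (x : ℝ) : ℝ := log (cosh x)

theorem hasDerivAt_lc (x : ℝ) : HasDerivAt lc (tanh x) x := by
  refine ((hasDerivAt_cosh x).log (cosh_pos x).ne').congr_deriv ?_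
  rw [tanh_eq_sinh_div_cosh]

theorem lip_of_deriv {f f' : ℝ → ℝ} {L : ℝ} (hf : ∀ x, HasDerivAt f (f' x) x)
    (hb : ∀ x, |f' x| ≤ L) (x y : ℝ) : |f x - f y| ≤ L * |x - y| := by
  simpa [Real.norm_eq_abs] using Convex.norm_image_sub_le_of_norm_hasDerivWithin_le (s := Set.univ)
    (fun a _ => (hf a).hasDerivWithinAt) (fun a _ => by rw [Real.norm_eq_abs]; exact hb a)
    convex_univ (Set.mem_univ y) (Set.mem_univ x)

theorem lc_lip (x y : ℝ) : |lc x - lc y| ≤ 1 * |x - y| :=
  lip_of_deriv hasDerivAt_lc (fun a => (abs_tanh_lt_one a).le) x y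

theorem tanh_lip (x y : ℝ) : |tanh x - tanh y| ≤ 1 * |x - y| :=
  (abs_tanh_sub_le x y).trans_eq (one_mul _).symm

theorem tanh_sq_lip (x y : ℝ) : |tanh x ^ 2 - tanh y ^ 2| ≤ 2 * |x - y| := by
  rw [sq_sub_sq, abs_mul]
  refine mul_le_mul ((abs_add_le _ _).trans ?_) (abs_tanh_sub_le x y) (abs_nonneg _) zero_le_two
  linarith [abs_tanh_lt_one x, abs_tanh_lt_one y]

/-- Second order expansion of `log cosh`. -/
theorem lc_expand (y a : ℝ) : |lc (y + a) - lc y - a * tanh y| ≤ 2 * a ^ 2 := by
  have h1 := log_cosh_shift_le y a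
  have h2 := log_cosh_shift_le (y + a) (-a)
  rw [show -a + (y + a) = y by ring] at h2
  rw [add_comm a y] at h1
  have h3 := mul_le_mul_of_nonneg_left (abs_tanh_sub_le (y + a) y) (abs_nonneg a)
  rw [← abs_mul, add_sub_cancel_left, ← abs_mul, ← pow_two a, abs_of_nonneg (sq_nonneg a)] at h3
  have h4 := abs_le.1 h3
  simp only [lc, abs_le]
  constructor <;> nlinarith [sq_nonneg a]

/-- The expected expansion. -/
theorem lc_expect (b : Fin M → ℝ) (c : Fin M) (γ s : ℝ) :
    |nE γ (∑ k, (b + Pi.single c s : Fin M → ℝ) k ^ 2) lc - nE γ (∑ k, b k ^ 2) lc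
      - s * (b c * nE γ (∑ k, b k ^ 2) fun x => 1 - tanh x ^ 2)| ≤ 2 * s ^ 2 := by
  classical
  set b' : Fin M → ℝ := b + Pi.single c s
  set ν := gp (Fin M × Fin 1)
  have hlc : Continuous lc := continuous_iff_continuousAt.2 fun x => (hasDerivAt_lc x).continuousAt
  have ht : Continuous tanh := Entropy.continuous_tanh'
  have hcc : ∀ w : Fin M → ℝ, Continuous fun z : Fin M × Fin 1 → ℝ => comb w z 0 := fun w => by
    unfold comb; fun_prop
  have hv : Continuous fun x : ℝ => 1 - tanh x ^ 2 := continuous_const.sub (ht.pow 2)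
  have hi : ∀ w : Fin M → ℝ, Integrable (fun z => lc (γ + comb w z 0)) ν := fun w => by
    refine integrable_lin_growth (L := √(∑ k, w k ^ 2))
      (hlc.comp (continuous_const.add (hcc w))) fun z => (lc_lip _ _).trans ?_
    simp only [one_mul, add_sub_add_left_eq_sub, comb_sub, Pi.zero_apply, sub_zero]
    refine le_trans ?_ (comb_nrm_le w z)
    rw [LL.nrm, ← sqrt_sq_eq_abs]
    exact sqrt_le_sqrt (single_le_sum (f := fun k => comb w z k ^ 2) (fun k _ => sq_nonneg _)
      (mem_univ 0))
  have hiz : Integrable (fun z : Fin M × Fin 1 → ℝ => z (c, 0)) ν := integrable_coord _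
  have hit : Integrable (fun z => tanh (γ + comb b z 0)) ν :=
    (integrable_const (1 : ℝ)).mono' (ht.comp (continuous_const.add (hcc b))).aestronglyMeasurable
      (ae_of_all _ fun z => by rw [Real.norm_eq_abs]; exact (abs_tanh_lt_one _).le)
  have hig : Integrable (fun z => z (c, 0) * tanh (γ + comb b z 0)) ν := by
    refine hiz.norm.mono' ((continuous_apply (c, (0 : Fin 1))).mul
      (ht.comp (continuous_const.add (hcc b)))).aestronglyMeasurable (ae_of_all _ fun z => ?_)
    rw [norm_mul]
    exact mul_le_of_le_one_right (norm_nonneg _) (by rw [Real.norm_eq_abs]; exact (abs_tanh_lt_one _).le)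
  have hiv : Integrable (fun z => b c * (1 - tanh (γ + comb b z 0) ^ 2)) ν := by
    refine Integrable.const_mul ((integrable_const (1 : ℝ)).mono'
      (hv.comp (continuous_const.add (hcc b))).aestronglyMeasurable (ae_of_all _ fun z => ?_)) _
    simp only [Function.comp_apply, Pi.add_apply]
    rw [Real.norm_eq_abs, abs_le]
    constructor <;> nlinarith [sq_nonneg (tanh (γ + comb b z 0)), Entropy.tanh_sq_le (γ + comb b z 0)]
  have hibp := ibp_gen (c, 0) hit hiv hig fun z => by
    have e : ∀ x, comb b (Function.update z (c, 0) x) 0 = comb b z 0 + b c * (x - z (c, 0)) := fun x => by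
      have e1 : ∀ k : Fin M, b k * Function.update z (c, 0) x (k, 0)
          = b k * z (k, 0) + if k = c then b k * (x - z (k, 0)) else 0 := fun k => by
        by_cases hk : k = c
        · subst hk; rw [Function.update_self, if_pos rfl]; ring
        · rw [Function.update_of_ne (by simp [hk]), if_neg hk, add_zero]
      simp only [comb, sum_congr rfl fun k _ => e1 k, sum_add_distrib, sum_ite_eq', mem_univ, if_true]
    simp only [e]
    refine ((hasDerivAt_tanh' _).comp (z (c, 0))
      (((((hasDerivAt_id' (z (c, 0))).sub_const (z (c, 0))).const_mul (b c)).const_add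
        (comb b z 0)).const_add γ)).congr_deriv ?_
    simp only [sub_self, mul_zero, add_zero, mul_one]
    ring
  rw [integral_const_mul, mean_comb b γ hv 0] at hibp
  rw [← mean_comb b' γ hlc (0 : Fin 1), ← mean_comb b γ hlc (0 : Fin 1), ← hibp,
    ← integral_const_mul, ← integral_sub (hi b') (hi b), ← integral_sub (f := fun z => lc (γ + comb b' z 0) - lc (γ + comb b z 0)) ((hi b').sub (hi b))
      (hig.const_mul s)]
  have h2 := Edge.sq_coord (ι := Fin M × Fin 1) (c, 0)
  refine abs_integral_le_integral_abs.trans ((integral_mono (((hi b').sub (hi b)).sub (hig.const_mul s)).abs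
    (h2.1.const_mul (2 * s ^ 2)) fun z => ?_).trans_eq ?_)
  · have e : comb b' z 0 = comb b z 0 + s * z (c, 0) := by
      simp [b', comb, add_mul, sum_add_distrib, Pi.single_apply]
    simp only [Pi.sub_apply, e, ← add_assoc]
    have h := lc_expand (γ + comb b z 0) (s * z (c, 0))
    rw [mul_pow, ← mul_assoc] at h
    simpa [mul_assoc] using h
  · rw [integral_const_mul, h2.2, mul_one]

/-- **The Onsager coefficient**: if the average of `log cosh` is near its mean at both ends, the
correlation of a coordinate vector with the magnetisation is the predicted one. -/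
theorem onsager (hn : 0 < n) (b : Fin M → ℝ) (c : Fin M) (γ : ℝ) {s δ R : ℝ} (hs : 0 < s)
    (z : Fin M × Fin n → ℝ) (hR : ∑ i, z (c, i) ^ 2 ≤ R * n)
    (h0 : |avgF lc (fun i => γ + comb b z i) - nE γ (∑ k, b k ^ 2) lc| ≤ δ)
    (h1 : |avgF lc (fun i => γ + comb (b + Pi.single c s) z i)
      - nE γ (∑ k, (b + Pi.single c s : Fin M → ℝ) k ^ 2) lc| ≤ δ) :
    |(∑ i, z (c, i) * tanh (γ + comb b z i)) / n - b c * nE γ (∑ k, b k ^ 2) fun x => 1 - tanh x ^ 2|
      ≤ 2 * δ / s + (2 * R + 2) * s := by
  have hn' : (0 : ℝ) < n := by exact_mod_cast hn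
  set G := (∑ i, z (c, i) * tanh (γ + comb b z i)) / (n : ℝ)
  have e : ∀ i, comb (b + Pi.single c s) z i = comb b z i + s * z (c, i) := fun i => by
    simp [comb, add_mul, sum_add_distrib, Pi.single_apply]
  have hemp : |avgF lc (fun i => γ + comb (b + Pi.single c s) z i)
      - avgF lc (fun i => γ + comb b z i) - s * G| ≤ 2 * R * s ^ 2 := by
    simp only [avgF, G, e, ← sub_div, ← sum_sub_distrib, ← mul_div_assoc, mul_sum, abs_div, abs_of_pos hn']
    rw [div_le_iff₀ hn']
    refine (abs_sum_le_sum_abs _ _).trans ?_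
    have hb : ∀ i, |lc (γ + (comb b z i + s * z (c, i))) - lc (γ + comb b z i)
        - s * (z (c, i) * tanh (γ + comb b z i))| ≤ 2 * s ^ 2 * z (c, i) ^ 2 := fun i => by
      have h := lc_expand (γ + comb b z i) (s * z (c, i))
      rw [mul_pow, ← mul_assoc] at h
      simpa [← add_assoc, mul_assoc] using h
    refine (sum_le_sum fun i _ => hb i).trans ?_
    rw [← mul_sum]
    nlinarith [mul_le_mul_of_nonneg_left hR (show 0 ≤ 2 * s ^ 2 by positivity)]
  have hexp := lc_expect b c γ s
  set T := b c * nE γ (∑ k, b k ^ 2) fun x => 1 - tanh x ^ 2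
  have key : |s * (G - T)| ≤ 2 * δ + (2 * R + 2) * s ^ 2 := by
    rw [abs_le] at hemp hexp h0 h1 ⊢
    constructor <;> nlinarith [hemp.1, hemp.2, hexp.1, hexp.2, h0.1, h0.2, h1.1, h1.2]
  rw [abs_mul, abs_of_pos hs] at key
  refine le_of_mul_le_mul_left (key.trans_eq ?_) hs
  field_simp

end Vale.Agent.P150.Fast.Amp
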