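import Vale.Agent.P150.Fast.Amp.Err
import Vale.Agent.P150.Fast.Amp.Onsager

/-!
On a good event the ideal process contracts, so that AMP nearly solves the TAP equation (P150,
module M6 part B).
-/

open MeasureTheory Real Finset
open scoped Matrix Matrix.Norms.L2Operator

namespace Vale.Agent.P150.Fast.Amp

open LL (nrm nrm_nonneg nrm_sq nrm_add)

variable {n M : ℕ} {τ β u ε : ℝ} {g : Fin n → ℝ} {x : ℕ → Fin n → ℝ} {d : Dis n}

theorem ampQ_step {t u : ℝ} (ht : 0 ≤ t) (hu : 0 ≤ u) (j : ℕ) :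
    |ampQ t u (j + 1) - ampQ t u j| ≤ t ^ j := by
  induction j with
  | zero =>
    simp only [ampQ, sub_zero, mul_zero, add_zero, pow_zero]
    rw [abs_of_nonneg (Entropy.psi_mem u).1]; exact (Entropy.psi_mem u).2.le
  | succ j ih =>
    have h0 := (psi_mem' t u j).1
    have h1 := (psi_mem' t u (j + 1)).1
    show |Entropy.psi (u + t * ampQ t u (j + 1)) - Entropy.psi (u + t * ampQ t u j)| ≤ t ^ (j + 1)
    refine (Entropy.psi_lip (by positivity) (by positivity)).trans ?_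
    rw [show u + t * ampQ t u (j + 1) - (u + t * ampQ t u j) = t * (ampQ t u (j + 1) - ampQ t u j) by ring,
      abs_mul, abs_of_nonneg ht, pow_succ']
    exact mul_le_mul_of_nonneg_left ih ht

theorem nrm_wOf_sub (hn : 0 < n) (Y : ℕ → Fin n → ℝ) (i j : ℕ) :
    nrm (wOf Y i - wOf Y j) ≤ nrm (Y i - Y j) / √n := by
  have hsn : 0 < √(n : ℝ) := sqrt_pos.2 (by exact_mod_cast hn)
  rw [show wOf Y i - wOf Y j = (√(n : ℝ))⁻¹ • (fun k => tanh (Y i k) - tanh (Y j k)) by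
    funext k; simp only [wOf, Pi.sub_apply, Pi.smul_apply, smul_eq_mul]; ring,
    nrm_smul, abs_of_pos (inv_pos.2 hsn), inv_mul_eq_div]
  exact div_le_div_of_nonneg_right (nrm_tanh_sub _ _) hsn.le

/-- One step of the contraction. -/
theorem diff_step (G : Good M τ β u ε g x d) (hn : 0 < n) (hβ : 0 ≤ β) (hβ1 : β ≤ 1) (hu : 0 ≤ u)
    (hτ : 0 < τ) (hτε : τ ≤ ε) {k : ℕ} (hk : k + 2 ≤ M) :
    nrm (idl M τ β u g x (k + 2) - idl M τ β u g x (k + 1))
      ≤ β ^ (k + 1) * √n + β * (nrm (idl M τ β u g x (k + 1) - idl M τ β u g x k) + 2 * ε * √n) := by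
  set Y := idl M τ β u g x with hY
  set e := dirs M τ (wOf Y) with he
  set sn := √(n : ℝ) with hsn
  have hsn0 : 0 < sn := sqrt_pos.2 (by exact_mod_cast hn)
  set a : ℕ → ℝ := fun c => if c < k + 2 then
    alph M τ Y (k + 1) c - (if c < k + 1 then alph M τ Y k c else 0) else 0 with ha
  have hal := abs_alph_le (M := M) hτ Y
  have hY2 : Y (k + 2) - Y (k + 1)
      = (β ^ 2 * (ampQ (β ^ 2) u (k + 2) - ampQ (β ^ 2) u (k + 1))) • (fun _ => (1 : ℝ))
        + β • ∑ c ∈ range M, a c • x c := by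
    have hsum : ∑ c ∈ range M, a c • x c = ∑ c ∈ range (k + 2), alph M τ Y (k + 1) c • x c
        - ∑ c ∈ range (k + 1), alph M τ Y k c • x c := by
      rw [← sum_subset (range_mono hk) (fun c _ hc => by
        rw [mem_range, not_lt] at hc; simp [ha, not_lt.2 hc])]
      rw [sum_range_succ (n := k + 1), sum_range_succ (n := k + 1),
        show ∑ c ∈ range (k + 1), a c • x c = ∑ c ∈ range (k + 1),
          (alph M τ Y (k + 1) c • x c - alph M τ Y k c • x c) from sum_congr rfl fun c hc => by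
            have := mem_range.1 hc
            simp [ha, (by omega : c ≤ k), (by omega : c < k + 2), sub_smul]]
      simp [ha, sum_sub_distrib]
      abel
    rw [hsum]
    funext i
    rw [hY, idl_eq, idl_eq (j := k + 1)]
    simp only [idlNext, ← hY, Pi.sub_apply, Pi.add_apply, Pi.smul_apply, smul_eq_mul, Finset.sum_apply,
      show k + 2 - 1 = k + 1 by omega, show k + 1 - 1 = k by omega]
    ring
  have ha3 : ∀ c < M, |a c| ≤ 3 := fun c _ => by
    rw [ha]; dsimp only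
    have h1 := hal (k + 1) c
    have h2 := hal k c
    split_ifs
    · linarith [abs_sub (alph M τ Y (k + 1) c) (alph M τ Y k c)]
    · rw [sub_zero]; linarith
    · rw [abs_zero]; norm_num
  set N := nrm (wOf Y (k + 1) - wOf Y k) with hN
  have hN0 : 0 ≤ N := nrm_nonneg _
  have hnorm : √(∑ c ∈ range M, a c ^ 2) ≤ N + τ := by
    rw [sqrt_le_left (by linarith), ← sum_subset (range_mono hk) (fun c _ hc => by
      rw [mem_range, not_lt] at hc; simp [ha, not_lt.2 hc]), sum_range_succ (n := k + 1)]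
    set b : ℕ → ℝ := fun c => e c ⬝ᵥ (wOf Y (k + 1) - wOf Y k) with hb
    have h1 : ∑ c ∈ range (k + 1), a c ^ 2 = ∑ c ∈ range (k + 1), b c ^ 2 := by
      refine sum_congr rfl fun c hc => ?_
      have := mem_range.1 hc
      simp [ha, hb, (by omega : c ≤ k), (by omega : c < k + 2), alph, he, dotProduct_sub]
    have h2 : |a (k + 1)| ≤ |b (k + 1)| + τ := by
      have h : a (k + 1) = b (k + 1) + e (k + 1) ⬝ᵥ wOf Y k := by
        simp [ha, hb, alph, he, dotProduct_sub]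
      rw [h]
      exact (abs_add_le _ _).trans (add_le_add le_rfl (dirs_late hτ _ (by omega)))
    have h3 : ∑ c ∈ range (k + 1), b c ^ 2 + b (k + 1) ^ 2 ≤ N ^ 2 := by
      rw [← sum_range_succ (f := fun c => b c ^ 2)]
      exact dirs_bessel hτ _ _ _
    have h4 : |b (k + 1)| ≤ N := dirs_dot_le hτ _ _ _
    have h5 := pow_le_pow_left₀ (abs_nonneg _) h2 2
    rw [sq_abs] at h5
    linarith [sq_abs (b (k + 1)), mul_le_mul_of_nonneg_left h4 hτ.le]
  have hlen := G.len a ha3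
  have hN' : N ≤ nrm (Y (k + 1) - Y k) / sn := nrm_wOf_sub hn Y (k + 1) k
  rw [hY2]
  refine (nrm_add _ _).trans (add_le_add ?_ ?_)
  · rw [nrm_smul, nrm_ones, abs_mul, abs_of_nonneg (sq_nonneg β)]
    refine mul_le_mul_of_nonneg_right ?_ hsn0.le
    refine (mul_le_of_le_one_left (abs_nonneg _) (pow_le_one₀ hβ hβ1)).trans
      ((ampQ_step (sq_nonneg β) hu (k + 1)).trans ?_)
    exact pow_le_pow_left₀ (sq_nonneg β) (by nlinarith) _
  · rw [nrm_smul, abs_of_nonneg hβ]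
    refine mul_le_mul_of_nonneg_left (hlen.trans ?_) hβ
    rw [le_div_iff₀ hsn0] at hN'
    linarith [mul_le_mul_of_nonneg_left hnorm hsn0.le, mul_le_mul_of_nonneg_right hτε hsn0.le]

theorem diff_le (G : Good M τ β u ε g x d) (hn : 0 < n) (hβ : 0 ≤ β) (hβ1 : β < 1) (hu : 0 ≤ u)
    (hτ : 0 < τ) (hτε : τ ≤ ε) (hε : ε ≤ 1) : ∀ k, k + 1 ≤ M →
      nrm (idl M τ β u g x (k + 1) - idl M τ β u g x k)
        ≤ √n * ((k + 3) * β ^ k + 2 * ε / (1 - β)) := by
  intro k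
  set Y := idl M τ β u g x with hY
  have hsn : 0 ≤ √(n : ℝ) := sqrt_nonneg _
  have hb : 0 < 1 - β := by linarith
  have hε0 : 0 < ε := hτ.trans_le hτε
  induction k with
  | zero =>
    intro hM
    have h1 : Y 1 - Y 0 = (β ^ 2 * ampQ (β ^ 2) u 1) • (fun _ => (1 : ℝ))
        + β • (alph M τ Y 0 0 • x 0) := by
      funext i
      rw [hY, idl_eq, idl_zero]
      simp [idlNext, plantH, ← hY]
      ring
    rw [h1, Nat.cast_zero, pow_zero, mul_one]
    refine (nrm_add _ _).trans ?_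
    rw [nrm_smul, nrm_ones, nrm_smul, nrm_smul, abs_of_nonneg hβ]
    have hq := psi_mem' (β ^ 2) u 1
    have hA : |β ^ 2 * ampQ (β ^ 2) u 1| ≤ 1 := by
      rw [abs_mul, abs_of_nonneg (sq_nonneg β), abs_of_nonneg hq.1]
      exact mul_le_one₀ (pow_le_one₀ hβ hβ1.le) hq.1 hq.2
    have hB : β * (|alph M τ Y 0 0| * nrm (x 0)) ≤ 2 * √n :=
      (mul_le_of_le_one_left (mul_nonneg (abs_nonneg _) (nrm_nonneg _)) hβ1.le).trans
        ((mul_le_of_le_one_left (nrm_nonneg _) (abs_alph_le hτ Y 0 0)).trans (len_one G hε hM))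
    have : 0 ≤ √(n : ℝ) * (2 * ε / (1 - β)) := by positivity
    linarith [mul_le_mul_of_nonneg_right hA hsn]
  | succ k ih =>
    intro hk
    refine (diff_step G hn hβ hβ1.le hu hτ hτε (k := k) hk).trans ?_
    have h2 := mul_le_mul_of_nonneg_left (ih (by omega)) hβ
    have e : β * (2 * ε / (1 - β) + 2 * ε) ≤ 2 * ε / (1 - β) := by
      rw [div_add' _ _ _ hb.ne', mul_div_assoc', div_le_div_iff₀ hb hb]
      nlinarith [mul_nonneg (mul_nonneg hε0.le hb.le) hb.le]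
    push_cast
    rw [pow_succ' β k] at *
    linarith [mul_le_mul_of_nonneg_left e hsn]

theorem avg_amp_close {F : ℝ → ℝ} {L : ℝ} (hF : ∀ x y, |F x - F y| ≤ L * |x - y|)
    (G : Good M τ β u ε g x d) (hn : 0 < n) (hβ : 0 ≤ β) (hβ1 : β ≤ 1)
    (hτ : 0 < τ) (hτε : τ ≤ ε) (hε : ε ≤ 1) {J : ℕ} (hJ : J ≤ M) :
    |avgF F (ampA (plantK n β d) (β ^ 2) u (plantH u g) J) - avgF F (idl M τ β u g x J)|
      ≤ L * (7 ^ J * ((M + 1) * (2 * M + 12)) * ε) := by
  have hL : 0 ≤ L := by simpa using (abs_nonneg _).trans (hF 1 0)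
  refine (avgF_sub_le hF hn _ _).trans ?_
  refine (mul_le_mul_of_nonneg_left (amp_close G hn hβ hβ1 hτ hτε hε J hJ).2 (by positivity)).trans_eq ?_
  have := (sqrt_pos.2 (Nat.cast_pos.2 hn : (0 : ℝ) < n)).ne'
  field_simp

/-- AMP nearly solves the TAP equation. -/
theorem residual_le {J : ℕ} (G : Good (J + 2) τ β u ε g x d) (hn : 0 < n) (hβ : 0 ≤ β) (hβ1 : β < 1)
    (hu : 0 ≤ u) (hτ : 0 < τ) (hτε : τ ≤ ε) (hε : ε ≤ 1) :
    nrm (fieldRes (plantK n β d) (plantH u g) (β ^ 2)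
        (ampA (plantK n β d) (β ^ 2) u (plantH u g) (J + 1)))
      ≤ √n * ((6 * 7 ^ (J + 2) * ((J + 3) * (2 * (J + 2) + 12)) + 4 / (1 - β) + 1) * ε
        + 2 * ((J + 4) * β ^ J)) := by
  set Y := idl (J + 2) τ β u g x with hY
  set K := plantK n β d
  set h := plantH u g
  set a := ampA K (β ^ 2) u h (J + 1)
  set m := fun i => tanh (a i) with hm
  set E := 7 ^ (J + 2) * (((J + 3 : ℝ)) * (2 * (J + 2) + 12) * (ε * √n)) with hE
  have hn' : (0 : ℝ) < n := by exact_mod_cast hn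
  have hsn : 0 < √(n : ℝ) := sqrt_pos.2 hn'
  have hε0 : 0 < ε := hτ.trans_le hτε
  have hcl : ∀ j ≤ J + 2, nrm ((ampState K (β ^ 2) u h j).1 - mPrev Y j) ≤ E ∧
      nrm (ampA K (β ^ 2) u h j - Y j) ≤ E := fun j hj => by
    have h1 := amp_close G hn hβ hβ1.le hτ hτε hε j hj
    have h2 : (7 : ℝ) ^ j * ((((J + 2 : ℕ) : ℝ) + 1) * (2 * ((J + 2 : ℕ) : ℝ) + 12) * (ε * √n)) ≤ E := by
      rw [hE]
      push_cast
      refine le_trans (le_of_eq (by ring)) (mul_le_mul_of_nonneg_right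
        (pow_le_pow_right₀ (by norm_num) hj) (by positivity))
    exact ⟨h1.1.trans h2, h1.2.trans h2⟩
  set c := β ^ 2 * (1 - ampQ (β ^ 2) u (J + 2))
  set prev := (ampState K (β ^ 2) u h (J + 1)).1
  set Q := avgF (fun z => tanh z ^ 2) a
  have e : fieldRes K h (β ^ 2) a = (a - ampA K (β ^ 2) u h (J + 2)) + c • (m - prev)
      + (β ^ 2 * (ampQ (β ^ 2) u (J + 2) - Q)) • m := by
    funext i
    simp only [fieldRes, ampA, ampState, Pi.sub_apply, Pi.add_apply, Pi.smul_apply, smul_eq_mul,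
      hm, a, c, prev, Q, avgF]
    ring
  have hd1 := diff_le G hn hβ hβ1 hu hτ hτε hε (J + 1) le_rfl
  have hd2 := diff_le G hn hβ hβ1 hu hτ hτε hε J (by omega)
  push_cast at hd1
  rw [← hY] at hd1 hd2
  rw [show J + 1 + 1 = J + 2 from rfl] at hd1
  have b1 : nrm (a - ampA K (β ^ 2) u h (J + 2)) ≤ 2 * E + nrm (Y (J + 2) - Y (J + 1)) := by
    rw [show a - ampA K (β ^ 2) u h (J + 2) = (a - Y (J + 1)) - (Y (J + 2) - Y (J + 1))
      - (ampA K (β ^ 2) u h (J + 2) - Y (J + 2)) by abel]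
    linarith [nrm_sub_le ((a - Y (J + 1)) - (Y (J + 2) - Y (J + 1))) (ampA K (β ^ 2) u h (J + 2) - Y (J + 2)),
      nrm_sub_le (a - Y (J + 1)) (Y (J + 2) - Y (J + 1)), (hcl (J + 1) (by omega)).2, (hcl (J + 2) le_rfl).2]
  have b2 : nrm (m - prev) ≤ 2 * E + nrm (Y (J + 1) - Y J) := by
    set mY := fun i => tanh (Y (J + 1) i)
    have hp : mPrev Y (J + 1) = fun i => tanh (Y J i) := by simp [mPrev]
    rw [show m - prev = (m - mY) + (mY - mPrev Y (J + 1)) - (prev - mPrev Y (J + 1)) by abel]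
    have h1 : nrm (m - mY) ≤ E := (nrm_tanh_sub a (Y (J + 1))).trans (hcl (J + 1) (by omega)).2
    have h2 : nrm (mY - mPrev Y (J + 1)) ≤ nrm (Y (J + 1) - Y J) := by rw [hp]; exact nrm_tanh_sub _ _
    linarith [nrm_sub_le ((m - mY) + (mY - mPrev Y (J + 1))) (prev - mPrev Y (J + 1)),
      nrm_add (m - mY) (mY - mPrev Y (J + 1)), (hcl (J + 1) (by omega)).1]
  have hQ : |ampQ (β ^ 2) u (J + 2) - Q| ≤ ε + 2 / √n * E := by
    have h1 := avgF_sub_le (F := fun z => tanh z ^ 2) tanh_sq_lip hn a (Y (J + 1))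
    have h2 : nrm (fun i => a i - Y (J + 1) i) ≤ E := (hcl (J + 1) (by omega)).2
    have h3 := G.sq (J + 1) (by omega)
    rw [← hY] at h3
    refine (abs_sub_le _ (avgF (fun z => tanh z ^ 2) (Y (J + 1))) _).trans ?_
    rw [abs_sub_comm] at h3
    exact add_le_add h3 ((abs_sub_comm _ _).trans_le (h1.trans
      (mul_le_mul_of_nonneg_left h2 (by positivity))))
  have hmn : nrm m ≤ √n := by
    rw [LL.nrm]
    refine sqrt_le_sqrt ((sum_le_card_nsmul _ _ 1 fun i _ => Entropy.tanh_sq_le _).trans_eq ?_)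
    simp
  have hq := psi_mem' (β ^ 2) u (J + 2)
  have hc : |c| ≤ 1 := by
    rw [abs_mul, abs_of_nonneg (sq_nonneg β)]
    exact mul_le_one₀ (pow_le_one₀ hβ hβ1.le) (abs_nonneg _) (abs_le.2 ⟨by linarith, by linarith⟩)
  rw [e]
  refine ((nrm_add _ _).trans (add_le_add ((nrm_add _ _).trans (add_le_add b1
    (show nrm (c • (m - prev)) ≤ 2 * E + nrm (Y (J + 1) - Y J) by
      rw [nrm_smul]; exact (mul_le_of_le_one_left (nrm_nonneg _) hc).trans b2)))
    (show nrm ((β ^ 2 * (ampQ (β ^ 2) u (J + 2) - Q)) • m) ≤ (ε + 2 / √n * E) * √n by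
      rw [nrm_smul, abs_mul, abs_of_nonneg (sq_nonneg β)]
      exact mul_le_mul ((mul_le_of_le_one_left (abs_nonneg _) (pow_le_one₀ hβ hβ1.le)).trans hQ) hmn
        (nrm_nonneg _) (by positivity)))).trans ?_
  have he : 2 / √n * E * √n = 2 * E := by field_simp
  rw [add_mul, he]
  have hp : β ^ (J + 1) ≤ β ^ J := pow_le_pow_of_le_one hβ hβ1.le J.le_succ
  have h4 : (J + 4 : ℝ) * β ^ (J + 1) + (J + 3) * β ^ J ≤ 2 * ((J + 4) * β ^ J) := by
    nlinarith [pow_nonneg hβ J]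
  rw [hE]
  have : √(n : ℝ) * ((↑J + 1 + 3) * β ^ (J + 1) + 2 * ε / (1 - β)) +
      √n * ((↑J + 3) * β ^ J + 2 * ε / (1 - β)) ≤ √n * (2 * ((J + 4) * β ^ J) + 4 * ε / (1 - β)) := by
    rw [← mul_add]
    refine mul_le_mul_of_nonneg_left ?_ hsn.le
    linarith [show 2 * ε / (1 - β) + 2 * ε / (1 - β) = 4 * ε / (1 - β) by ring]
  generalize hP : ((7 : ℝ) ^ (J + 2) * ((J + 3) * (2 * (J + 2) + 12))) = P at *
  have hE' : (7 : ℝ) ^ (J + 2) * ((J + 3) * (2 * (J + 2) + 12) * (ε * √n)) = P * (ε * √n) := by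
    rw [← hP]; ring
  rw [hE', show 6 * 7 ^ (J + 2) * (((J : ℝ) + 3) * (2 * (J + 2) + 12)) = 6 * P by rw [← hP]; ring]
  refine le_trans ?_ (le_of_eq (show 6 * (P * (ε * √(n : ℝ))) + ε * √n + √n * (2 * ((J + 4) * β ^ J) + 4 * ε / (1 - β))
      = √n * ((6 * P + 4 / (1 - β) + 1) * ε + 2 * ((J + 4) * β ^ J)) by ring))
  linarith

end Vale.Agent.P150.Fast.Amp
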