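import Vale.Agent.P150.Fast.Amp.Ideal

/-!
On a good event the ideal process satisfies the AMP recursion up to small errors, hence stays close
to AMP (P150, module M6 part B).
-/

open MeasureTheory Real Finset
open scoped Matrix Matrix.Norms.L2Operator

namespace Vale.Agent.P150.Fast.Amp

open LL (nrm nrm_nonneg nrm_sq nrm_add nrm_mulVec)

variable {n M : ℕ} {τ β u ε : ℝ} {g : Fin n → ℝ} {x : ℕ → Fin n → ℝ} {d : Dis n}

theorem nrm_smul (a : ℝ) (v : Fin n → ℝ) : nrm (a • v) = |a| * nrm v := by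
  simp only [LL.nrm, Pi.smul_apply, smul_eq_mul, mul_pow, ← mul_sum]
  rw [sqrt_mul (sq_nonneg _), sqrt_sq_eq_abs]

theorem nrm_sub_le (v w : Fin n → ℝ) : nrm (v - w) ≤ nrm v + nrm w := by
  rw [sub_eq_add_neg]
  exact (nrm_add v (-w)).trans_eq (by rw [LL.nrm_neg])

theorem nrm_sum_le {ι : Type*} (s : Finset ι) (f : ι → Fin n → ℝ) :
    nrm (∑ i ∈ s, f i) ≤ ∑ i ∈ s, nrm (f i) :=
  le_sum_of_subadditive nrm (by simp [LL.nrm]) nrm_add s f

theorem nrm_ones : nrm (fun _ : Fin n => (1 : ℝ)) = √n := by simp [LL.nrm]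

theorem nrm_tanh_sub (a b : Fin n → ℝ) :
    nrm (fun i => tanh (a i) - tanh (b i)) ≤ nrm (a - b) := by
  refine sqrt_le_sqrt (sum_le_sum fun i _ => ?_)
  rw [Pi.sub_apply]
  exact sq_le_sq.2 (abs_tanh_sub_le _ _)

theorem nrm_wOf_le (Y : ℕ → Fin n → ℝ) (j : ℕ) : nrm (wOf Y j) ≤ 1 := by
  rw [LL.nrm, sqrt_le_one]
  rcases Nat.eq_zero_or_pos n with h | h
  · subst h; simp
  refine (sum_le_card_nsmul _ _ (1 / (n : ℝ)) fun i _ => ?_).trans_eq ?_
  · rw [wOf, div_pow, sq_sqrt (Nat.cast_nonneg n)]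
    exact div_le_div_of_nonneg_right (Entropy.tanh_sq_le _) (Nat.cast_nonneg n)
  · have : (n : ℝ) ≠ 0 := by exact_mod_cast h.ne'
    simp [this]

theorem sqrt_smul_wOf (hn : 0 < n) (Y : ℕ → Fin n → ℝ) (j : ℕ) :
    √(n : ℝ) • wOf Y j = fun i => tanh (Y j i) := by
  funext i
  simp only [Pi.smul_apply, smul_eq_mul, wOf]
  rw [mul_div_cancel₀ _ (sqrt_pos.2 (Nat.cast_pos.2 hn)).ne']

theorem abs_alph_le (hτ : 0 < τ) (Y : ℕ → Fin n → ℝ) (j c : ℕ) : |alph M τ Y j c| ≤ 1 :=
  (dirs_dot_le hτ _ c _).trans (nrm_wOf_le Y j)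

/-- The means of the previous time. -/
noncomputable def mPrev (Y : ℕ → Fin n → ℝ) (j : ℕ) : Fin n → ℝ :=
  if j = 0 then 0 else fun i => tanh (Y (j - 1) i)

/-- The good event. -/
structure Good (M : ℕ) (τ β u ε : ℝ) (g : Fin n → ℝ) (x : ℕ → Fin n → ℝ) (d : Dis n) : Prop where
  norm : ‖kmat n β d‖ ≤ 2 * β + 1
  apply : ∀ k < M, goe n d *ᵥ dirs M τ (wOf (idl M τ β u g x)) k
    = (dirs M τ (wOf (idl M τ β u g x)) k ⬝ᵥ dirs M τ (wOf (idl M τ β u g x)) k) •
      (x k + ((√2 - 1) * (dirs M τ (wOf (idl M τ β u g x)) k ⬝ᵥ x k)) • dirs M τ (wOf (idl M τ β u g x)) k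
        + ∑ c ∈ range k, ((dirs M τ (wOf (idl M τ β u g x)) k ⬝ᵥ x c)
          - dirs M τ (wOf (idl M τ β u g x)) c ⬝ᵥ x k) • dirs M τ (wOf (idl M τ β u g x)) c)
  len : ∀ a : ℕ → ℝ, (∀ c < M, |a c| ≤ 3) →
    nrm (∑ c ∈ range M, a c • x c) ≤ √n * (√(∑ c ∈ range M, a c ^ 2) + ε)
  slice : ∀ c k, c ≤ k → k < M → |dirs M τ (wOf (idl M τ β u g x)) c ⬝ᵥ x k| ≤ ε * √n
  mean : ∀ j < M, |avgF tanh (idl M τ β u g x j) - ampQ (β ^ 2) u (j + 1)| ≤ ε
  sq : ∀ j < M, |avgF (fun a => tanh a ^ 2) (idl M τ β u g x j) - ampQ (β ^ 2) u (j + 1)| ≤ ε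
  ons : ∀ c j, c < j → j < M →
    |β * ((x c ⬝ᵥ fun i => tanh (idl M τ β u g x j i)) / n)
      - β ^ 2 * alph M τ (idl M τ β u g x) (j - 1) c * (1 - ampQ (β ^ 2) u (j + 1))| ≤ ε

theorem len_one (G : Good M τ β u ε g x d) (hε : ε ≤ 1) {c : ℕ} (hc : c < M) :
    nrm (x c) ≤ 2 * √n := by
  have h := G.len (fun k => if k = c then 1 else 0) fun k _ => by split_ifs <;> norm_num
  simp only [ite_smul, one_smul, zero_smul, ite_pow, one_pow, zero_pow two_ne_zero, sum_ite_eq',
    mem_range, hc, if_true, sqrt_one] at h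
  nlinarith [sqrt_nonneg (n : ℝ)]

theorem psi_mem' (t u : ℝ) (j : ℕ) : 0 ≤ ampQ t u j ∧ ampQ t u j ≤ 1 := by
  cases j with
  | zero => simp [ampQ]
  | succ j => exact ⟨(Entropy.psi_mem _).1, (Entropy.psi_mem _).2.le⟩

/-- **The recursion error.** -/
theorem recursion_err (G : Good M τ β u ε g x d) (hn : 0 < n) (hβ : 0 ≤ β) (hβ1 : β ≤ 1)
    (hτ : 0 < τ) (hτε : τ ≤ ε) (hε : ε ≤ 1) {j : ℕ} (hj : j < M) :
    nrm (idl M τ β u g x (j + 1) - (plantH u g
      + plantK n β d *ᵥ (fun i => tanh (idl M τ β u g x j i))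
      - (β ^ 2 * (1 - ampQ (β ^ 2) u (j + 1))) • mPrev (idl M τ β u g x) j))
      ≤ (M + 1) * (2 * M + 12) * (ε * √n) := by
  set Y := idl M τ β u g x with hY
  set e := dirs M τ (wOf Y) with he
  set q := ampQ (β ^ 2) u (j + 1)
  set av := avgF tanh (Y j)
  set sn := √(n : ℝ) with hsn
  have hsn0 : 0 < sn := sqrt_pos.2 (by exact_mod_cast hn)
  set r : ℕ → Fin n → ℝ := fun k => wOf Y k - ∑ c ∈ range (k + 1), alph M τ Y k c • e c with hr
  have hrτ : ∀ k < M, nrm (r k) ≤ τ := fun k hk => dirs_tail hτ _ hk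
  have hε0 : 0 < ε := hτ.trans_le hτε
  have hal : ∀ k c, |alph M τ Y k c| ≤ 1 := abs_alph_le hτ Y
  have hee : ∀ k c, alph M τ Y k c * (e c ⬝ᵥ e c) = alph M τ Y k c := fun k c => by
    rcases dirs_ok (M := M) hτ (wOf Y) c with h | h
    · rw [he, h, mul_one]
    · simp [alph, he, h]
  -- the matrix on the means
  set S1 : Fin n → ℝ := ∑ c ∈ range (j + 1), alph M τ Y j c • x c
  set κ : ℕ → ℝ := fun c => alph M τ Y j c * ((√2 - 1) * (e c ⬝ᵥ x c))
    + ∑ l ∈ range (j + 1), (if c < l then alph M τ Y j l * ((e l ⬝ᵥ x c) - e c ⬝ᵥ x l) else 0)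
  have hgoe : goe n d *ᵥ wOf Y j = S1 + ∑ c ∈ range (j + 1), κ c • e c + goe n d *ᵥ r j := by
    have h1 : wOf Y j = (∑ c ∈ range (j + 1), alph M τ Y j c • e c) + r j := by
      simp [hr]
    conv_lhs => rw [h1, Matrix.mulVec_add, Matrix.mulVec_sum]
    refine congrArg (fun v => v + goe n d *ᵥ r j) ?_
    have h2 : ∀ l ∈ range (j + 1), goe n d *ᵥ (alph M τ Y j l • e l)
        = alph M τ Y j l • x l + (alph M τ Y j l * ((√2 - 1) * (e l ⬝ᵥ x l))) • e l
          + ∑ c ∈ range (j + 1), (if c < l then alph M τ Y j l * ((e l ⬝ᵥ x c) - e c ⬝ᵥ x l) else 0) • e c := by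
      intro l hl
      have hlM : l < M := by have := mem_range.1 hl; omega
      rw [Matrix.mulVec_smul, G.apply l hlM, smul_smul, ← hY, ← he, hee, smul_add, smul_add, smul_smul,
        smul_sum]
      congr 1
      simp only [smul_smul, ite_smul, zero_smul]
      rw [← sum_filter]
      refine sum_congr ?_ fun c _ => rfl
      ext c; simp only [mem_filter, mem_range]; have := mem_range.1 hl; omega
    rw [sum_congr rfl h2, sum_add_distrib, sum_add_distrib, add_assoc]
    congr 1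
    rw [sum_comm]
    simp only [← sum_smul, ← sum_add_distrib]
    exact sum_congr rfl fun c _ => by simp only [κ, add_smul]
  have hK : plantK n β d *ᵥ (fun i => tanh (Y j i))
      = β • (goe n d *ᵥ wOf Y j) + (β ^ 2 * av) • fun _ => (1 : ℝ) := by
    rw [plantK, Matrix.add_mulVec, Matrix.smul_mulVec]
    congr 1
    · funext i
      simp only [Matrix.mulVec, dotProduct, Pi.smul_apply, smul_eq_mul, kmat_apply, wOf, mul_sum]
      exact sum_congr rfl fun k _ => by ring
    · funext i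
      simp only [Matrix.mulVec, dotProduct, Matrix.vecMulVec_apply, Pi.smul_apply, smul_eq_mul,
        mul_one, one_mul, av, avgF]
      ring
  have hstep : Y (j + 1) = (β ^ 2 * q) • (fun _ => (1 : ℝ)) + plantH u g + β • S1 := by
    funext i
    rw [hY, idl_eq]
    simp only [idlNext, ← hY, Pi.add_apply, Pi.smul_apply, smul_eq_mul, plantH, S1, Finset.sum_apply,
      add_tsub_cancel_right, mul_sum]
    ring
  -- the previous means
  set lamP : ℕ → ℝ := fun c => if c < j then sn * alph M τ Y (j - 1) c else 0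
  set rp : Fin n → ℝ := if j = 0 then 0 else sn • r (j - 1)
  have hprev : mPrev Y j = ∑ c ∈ range (j + 1), lamP c • e c + rp := by
    rcases Nat.eq_zero_or_pos j with h | h
    · simp [mPrev, h, lamP, rp]
    · have hj1 : j - 1 + 1 = j := by omega
      simp only [mPrev, rp, if_neg h.ne', ← sqrt_smul_wOf hn Y (j - 1)]
      rw [sum_range_succ, show lamP j = 0 by simp [lamP], zero_smul, add_zero,
        sum_congr rfl (fun c hc => show lamP c • e c = sn • (alph M τ Y (j - 1) c • e c) by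
          simp [lamP, mem_range.1 hc, smul_smul]), ← smul_sum, ← smul_add]
      simp [hr, hj1]
      rfl
  -- the error
  have hD : Y (j + 1) - (plantH u g + plantK n β d *ᵥ (fun i => tanh (Y j i))
      - (β ^ 2 * (1 - q)) • mPrev Y j)
      = (β ^ 2 * (q - av)) • (fun _ => (1 : ℝ)) - β • (goe n d *ᵥ r j) + (β ^ 2 * (1 - q)) • rp
        + ∑ c ∈ range (j + 1), (β ^ 2 * (1 - q) * lamP c - β * κ c) • e c := by
    rw [hK, hgoe, hstep, hprev]
    simp only [sub_smul, sum_sub_distrib, smul_add, smul_sum, smul_smul, mul_sub]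
    abel
  rw [hD]
  have b1 : nrm ((β ^ 2 * (q - av)) • fun _ : Fin n => (1 : ℝ)) ≤ ε * sn := by
    rw [nrm_smul, nrm_ones, abs_mul]
    refine mul_le_mul_of_nonneg_right ?_ hsn0.le
    refine (mul_le_of_le_one_left (abs_nonneg _) ?_).trans ?_
    · rw [abs_of_nonneg (sq_nonneg β)]; exact pow_le_one₀ hβ hβ1
    · rw [abs_sub_comm]; exact G.mean j hj
  have b2 : nrm (β • (goe n d *ᵥ r j)) ≤ 3 * (ε * sn) := by
    have e1 : β • (goe n d *ᵥ r j) = kmat n β d *ᵥ (sn • r j) := by
      funext i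
      simp only [Matrix.mulVec, dotProduct, Pi.smul_apply, smul_eq_mul, kmat_apply, mul_sum, ← hsn]
      exact sum_congr rfl fun k _ => by field_simp
    rw [e1]
    refine (nrm_mulVec _ _).trans ?_
    rw [nrm_smul, abs_of_pos hsn0]
    calc ‖kmat n β d‖ * (sn * nrm (r j)) ≤ 3 * (sn * ε) :=
          mul_le_mul (G.norm.trans (by linarith)) (mul_le_mul_of_nonneg_left ((hrτ j hj).trans hτε) hsn0.le)
            (mul_nonneg hsn0.le (nrm_nonneg _)) (by norm_num)
      _ = 3 * (ε * sn) := by ring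
  have hq := psi_mem' (β ^ 2) u (j + 1)
  have ht : |β ^ 2 * (1 - q)| ≤ 1 := by
    rw [abs_mul, abs_of_nonneg (sq_nonneg β)]
    exact mul_le_one₀ (pow_le_one₀ hβ hβ1) (abs_nonneg _) (abs_le.2 ⟨by linarith, by linarith⟩)
  have b3 : nrm ((β ^ 2 * (1 - q)) • rp) ≤ ε * sn := by
    rw [nrm_smul]
    refine (mul_le_of_le_one_left (nrm_nonneg _) ht).trans ?_
    unfold rp
    split_ifs with h
    · simp [LL.nrm]; positivity
    · rw [nrm_smul, abs_of_pos hsn0, mul_comm]
      exact mul_le_mul_of_nonneg_right ((hrτ _ (by omega)).trans hτε) hsn0.le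
  have b4 : ∀ c ∈ range (j + 1), |β ^ 2 * (1 - q) * lamP c - β * κ c| ≤ (2 * M + 7) * (ε * sn) := by
    intro c hc
    have hcj : c ≤ j := by have := mem_range.1 hc; omega
    have hcM : c < M := by omega
    set T := ∑ l ∈ range (j + 1), (if c < l then alph M τ Y j l * (e l ⬝ᵥ x c) else 0) with hT
    set T' := ∑ l ∈ range (j + 1), (if c < l then alph M τ Y j l * (e c ⬝ᵥ x l) else 0) with hT'
    have hκ : κ c = alph M τ Y j c * ((√2 - 1) * (e c ⬝ᵥ x c)) + (T - T') := by
      simp only [κ, T, T', ← sum_sub_distrib]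
      congr 1
      exact sum_congr rfl fun l _ => by split_ifs <;> ring
    have h1 : |β * (alph M τ Y j c * ((√2 - 1) * (e c ⬝ᵥ x c)))| ≤ ε * sn := by
      have hs2 : |√2 - 1| ≤ 1 := by
        rw [abs_le]
        constructor <;> nlinarith [sqrt_nonneg (2 : ℝ), mul_self_sqrt (zero_le_two (α := ℝ))]
      rw [abs_mul, abs_mul, abs_mul, abs_of_nonneg hβ]
      refine (mul_le_of_le_one_left (by positivity) hβ1).trans ((mul_le_of_le_one_left (by positivity)
        (hal j c)).trans ((mul_le_of_le_one_left (abs_nonneg _) hs2).trans ?_))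
      exact G.slice c c le_rfl hcM
    have hM0 : ∀ l ∈ range (j + 1), |alph M τ Y j l| ≤ 1 := fun l _ => hal j l
    have h2 : |β * T'| ≤ M * (ε * sn) := by
      rw [abs_mul, abs_of_nonneg hβ]
      refine (mul_le_of_le_one_left (abs_nonneg _) hβ1).trans ((abs_sum_le_sum_abs _ _).trans ?_)
      refine (sum_le_card_nsmul _ _ (ε * sn) fun l hl => ?_).trans ?_
      · split_ifs with h
        · rw [abs_mul]
          exact (mul_le_of_le_one_left (abs_nonneg _) (hM0 l hl)).trans
            (G.slice c l h.le (by have := mem_range.1 hl; omega))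
        · rw [abs_zero]; positivity
      · rw [card_range, nsmul_eq_mul]
        exact mul_le_mul_of_nonneg_right (by exact_mod_cast hj) (by positivity)
    have h3 : |β ^ 2 * (1 - q) * lamP c - β * T| ≤ (M + 4) * (ε * sn) := by
      rcases hcj.eq_or_lt with h | h
      · have e1 : T = 0 := sum_eq_zero fun l hl => by
          rw [if_neg]; have := mem_range.1 hl; omega
        rw [e1]
        simp only [lamP, if_neg (by omega : ¬ c < j), mul_zero, sub_zero, abs_zero]
        positivity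
      · have e1 : T = x c ⬝ᵥ wOf Y j - x c ⬝ᵥ r j
            - ∑ l ∈ range (j + 1), (if c < l then 0 else alph M τ Y j l * (e l ⬝ᵥ x c)) := by
          have : x c ⬝ᵥ wOf Y j - x c ⬝ᵥ r j = ∑ l ∈ range (j + 1), alph M τ Y j l * (e l ⬝ᵥ x c) := by
            rw [← dotProduct_sub, show wOf Y j - r j = ∑ c ∈ range (j + 1), alph M τ Y j c • e c by
              simp [hr], dotProduct_sum]
            exact sum_congr rfl fun l _ => by rw [dotProduct_smul, smul_eq_mul, dotProduct_comm]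
          rw [this, ← sum_sub_distrib]
          exact sum_congr rfl fun l _ => by split_ifs <;> ring
        have e2 : x c ⬝ᵥ wOf Y j = sn * ((x c ⬝ᵥ fun i => tanh (Y j i)) / n) := by
          rw [← sqrt_smul_wOf hn Y j, dotProduct_smul, smul_eq_mul, ← hsn]
          have : sn * sn = n := mul_self_sqrt (Nat.cast_nonneg n)
          field_simp
          rw [pow_two, this]
        have h4 : |x c ⬝ᵥ r j| ≤ 2 * (ε * sn) := by
          have hb : ∀ v, x c ⬝ᵥ v ≤ nrm (x c) * nrm v := LL.dot_le _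
          have hlen := len_one G hε hcM
          have hb' : nrm (x c) * nrm (r j) ≤ 2 * sn * ε :=
            mul_le_mul hlen ((hrτ j hj).trans hτε) (nrm_nonneg _) (by positivity)
          refine abs_le.2 ⟨?_, by linarith [hb (r j)]⟩
          have := hb (-r j)
          rw [dotProduct_neg, LL.nrm_neg] at this
          linarith
        have h5 : |∑ l ∈ range (j + 1), (if c < l then 0 else alph M τ Y j l * (e l ⬝ᵥ x c))|
            ≤ M * (ε * sn) := by
          refine (abs_sum_le_sum_abs _ _).trans ((sum_le_card_nsmul _ _ (ε * sn) fun l hl => ?_).trans ?_)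
          · split_ifs with h'
            · rw [abs_zero]; positivity
            · rw [abs_mul]
              exact (mul_le_of_le_one_left (abs_nonneg _) (hM0 l hl)).trans
                (G.slice l c (by omega) hcM)
          · rw [card_range, nsmul_eq_mul]
            exact mul_le_mul_of_nonneg_right (by exact_mod_cast hj) (by positivity)
        have h6 := mul_le_mul_of_nonneg_left (G.ons c j h hj) hsn0.le
        rw [← abs_of_pos hsn0, ← abs_mul, abs_of_pos hsn0] at h6
        simp only [lamP, if_pos h]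
        rw [e1, e2]
        set A := x c ⬝ᵥ r j
        set B := ∑ l ∈ range (j + 1), (if c < l then 0 else alph M τ Y j l * (e l ⬝ᵥ x c))
        set P := (x c ⬝ᵥ fun i => tanh (Y j i)) / (n : ℝ)
        have hA : |β * A| ≤ 2 * (ε * sn) := by
          rw [abs_mul, abs_of_nonneg hβ]; exact (mul_le_of_le_one_left (abs_nonneg _) hβ1).trans h4
        have hB : |β * B| ≤ M * (ε * sn) := by
          rw [abs_mul, abs_of_nonneg hβ]; exact (mul_le_of_le_one_left (abs_nonneg _) hβ1).trans h5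
        calc |β ^ 2 * (1 - q) * (sn * alph M τ Y (j - 1) c) - β * (sn * P - A - B)|
            = |-(sn * (β * P - β ^ 2 * alph M τ Y (j - 1) c * (1 - q))) + β * A + β * B| := by
              congr 1; ring
          _ ≤ sn * ε + 2 * (ε * sn) + M * (ε * sn) :=
              (abs_add_le _ _).trans (add_le_add ((abs_add_le _ _).trans
                (add_le_add (by rw [abs_neg]; exact h6) hA)) hB)
          _ ≤ (M + 4) * (ε * sn) := by linarith [mul_pos hε0 hsn0]
    rw [hκ, show β ^ 2 * (1 - q) * lamP c - β * (alph M τ Y j c * ((√2 - 1) * (e c ⬝ᵥ x c)) + (T - T'))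
      = (β ^ 2 * (1 - q) * lamP c - β * T) + β * T'
        - β * (alph M τ Y j c * ((√2 - 1) * (e c ⬝ᵥ x c))) by ring]
    refine ((abs_sub _ _).trans (add_le_add ((abs_add_le _ _).trans (add_le_add h3 h2)) h1)).trans ?_
    linarith [mul_pos hε0 hsn0]
  have b5 : nrm (∑ c ∈ range (j + 1), (β ^ 2 * (1 - q) * lamP c - β * κ c) • e c)
      ≤ M * ((2 * M + 7) * (ε * sn)) := by
    refine (nrm_sum_le _ _).trans ((sum_le_card_nsmul _ _ ((2 * M + 7) * (ε * sn)) fun c hc => ?_).trans ?_)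
    · rw [nrm_smul]
      refine (mul_le_of_le_one_right (abs_nonneg _) ?_).trans (b4 c hc)
      rw [he, ← sqrt_sq (nrm_nonneg _), sqrt_le_one, ← dot_self_eq]
      rcases dirs_ok (M := M) hτ (wOf Y) c with h | h <;> simp [h]
    · rw [card_range, nsmul_eq_mul]
      exact mul_le_mul_of_nonneg_right (by exact_mod_cast hj) (by positivity)
  refine ((nrm_add _ _).trans (add_le_add ((nrm_add _ _).trans
    (add_le_add ((nrm_sub_le _ _).trans (add_le_add b1 b2)) b3)) b5)).trans ?_
  nlinarith [mul_pos hε0 hsn0, (M.cast_nonneg : (0 : ℝ) ≤ M)]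

/-- AMP stays next to the ideal process. -/
theorem amp_close (G : Good M τ β u ε g x d) (hn : 0 < n) (hβ : 0 ≤ β) (hβ1 : β ≤ 1)
    (hτ : 0 < τ) (hτε : τ ≤ ε) (hε : ε ≤ 1) :
    ∀ j ≤ M, nrm ((ampState (plantK n β d) (β ^ 2) u (plantH u g) j).1 - mPrev (idl M τ β u g x) j)
        ≤ 7 ^ j * ((M + 1) * (2 * M + 12) * (ε * √n)) ∧
      nrm (ampA (plantK n β d) (β ^ 2) u (plantH u g) j - idl M τ β u g x j)
        ≤ 7 ^ j * ((M + 1) * (2 * M + 12) * (ε * √n)) := by
  set Y := idl M τ β u g x with hY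
  set C := (M + 1 : ℝ) * (2 * M + 12) * (ε * √n) with hC
  have hC0 : 0 ≤ C := by
    have : 0 < ε := hτ.trans_le hτε
    positivity
  intro j
  induction j with
  | zero =>
    intro _
    rw [ampA, hY, idl_zero]
    simp [ampState, mPrev, LL.nrm, hC0]
  | succ j ih =>
    intro hj
    obtain ⟨h1, h2⟩ := ih (by omega)
    set K := plantK n β d
    set h := plantH u g
    set st := ampState K (β ^ 2) u h j
    set m := fun i => tanh (Y j i)
    set m' := fun i => tanh (st.2 i)
    have hm : nrm (m' - m) ≤ 7 ^ j * C := (nrm_tanh_sub _ _).trans h2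
    refine ⟨le_trans (le_of_eq_of_le ?_ hm) ?_, ?_⟩
    · congr 1
    · exact mul_le_mul_of_nonneg_right (pow_le_pow_right₀ (by norm_num) j.le_succ) hC0
    set c := β ^ 2 * (1 - ampQ (β ^ 2) u (j + 1))
    have e : ampA K (β ^ 2) u h (j + 1) - Y (j + 1)
        = K *ᵥ (m' - m) - c • (st.1 - mPrev Y j) - (Y (j + 1) - (h + K *ᵥ m - c • mPrev Y j)) := by
      funext i
      simp only [ampA, ampState, Pi.sub_apply, Pi.add_apply, Pi.smul_apply, smul_eq_mul,
        Matrix.mulVec_sub, c, m', st]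
      simp only [Matrix.mulVec, dotProduct]
      ring
    have hK : nrm (K *ᵥ (m' - m)) ≤ 4 * (7 ^ j * C) := by
      rw [show K *ᵥ (m' - m) = kmat n β d *ᵥ (m' - m)
          + (β ^ 2 / n * ∑ i, (m' - m) i) • fun _ => (1 : ℝ) by
        funext i
        simp only [K, plantK, Pi.add_apply, Pi.smul_apply, smul_eq_mul, Matrix.mulVec, dotProduct,
          Matrix.add_apply, Matrix.smul_apply, Matrix.vecMulVec_apply, mul_one, mul_sum,
          ← sum_add_distrib, add_mul]]
      have hn' : (0 : ℝ) < n := by exact_mod_cast hn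
      have h3 : nrm ((β ^ 2 / n * ∑ i, (m' - m) i) • fun _ : Fin n => (1 : ℝ)) ≤ nrm (m' - m) := by
        rw [nrm_smul, nrm_ones, abs_mul, abs_of_nonneg (by positivity : (0 : ℝ) ≤ β ^ 2 / n)]
        have hs := (abs_sum_le_sum_abs _ univ).trans (abs_sum_le_sqrt (m' - m))
        calc β ^ 2 / n * |∑ i, (m' - m) i| * √n
            ≤ 1 / n * (√n * nrm (m' - m)) * √n := by
              refine mul_le_mul_of_nonneg_right (mul_le_mul ?_ hs (abs_nonneg _) (by positivity))
                (sqrt_nonneg _)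
              exact div_le_div_of_nonneg_right (pow_le_one₀ hβ hβ1) hn'.le
          _ = nrm (m' - m) := by
              field_simp
              rw [sq_sqrt hn'.le]
      refine (nrm_add _ _).trans ((add_le_add (nrm_mulVec _ _) h3).trans ?_)
      have := mul_le_mul (G.norm.trans (show 2 * β + 1 ≤ 3 by linarith)) hm (nrm_nonneg _) (by norm_num)
      linarith
    have hc : |c| ≤ 1 := by
      have hq := psi_mem' (β ^ 2) u (j + 1)
      rw [abs_mul, abs_of_nonneg (sq_nonneg β)]
      exact mul_le_one₀ (pow_le_one₀ hβ hβ1) (abs_nonneg _) (abs_le.2 ⟨by linarith, by linarith⟩)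
    have hp : nrm (c • (st.1 - mPrev Y j)) ≤ 7 ^ j * C := by
      rw [nrm_smul]
      exact (mul_le_of_le_one_left (nrm_nonneg _) hc).trans h1
    have hr := recursion_err G hn hβ hβ1 hτ hτε hε (j := j) (by omega)
    rw [e]
    refine ((nrm_sub_le _ _).trans (add_le_add ((nrm_sub_le _ _).trans (add_le_add hK hp)) hr)).trans ?_
    have h7 : (1 : ℝ) ≤ 7 ^ j := one_le_pow₀ (by norm_num)
    rw [pow_succ]
    linarith [mul_le_mul_of_nonneg_right h7 hC0]

end Vale.Agent.P150.Fast.Amp
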