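import Vale.Agent.P150.Fast.Amp.Err
import Vale.Agent.P150.Fast.Amp.Onsager

/-!
The good event of state evolution follows from uniform concentration of the ideal vectors (P150,
module M6 part B).
-/

open MeasureTheory Real Finset
open scoped Matrix Matrix.Norms.L2Operator

namespace Vale.Agent.P150.Fast.Amp

open LL (nrm nrm_nonneg nrm_sq nrm_add)

variable {n M : ℕ} {τ β u ε : ℝ}

/-- The side field in an array. -/
def gZ (z : Fin (M + 1) × Fin n → ℝ) : Fin n → ℝ := fun i => z (0, i)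

/-- The innovations in an array. -/
noncomputable def xZ (z : Fin (M + 1) × Fin n → ℝ) : ℕ → Fin n → ℝ :=
  rows fun p : Fin M × Fin n => z (p.1.succ, p.2)

/-- The scalar channel at time `j`. -/
noncomputable def gam (β u : ℝ) (j : ℕ) : ℝ := u + β ^ 2 * ampQ (β ^ 2) u j

/-- The coefficients of the fields at time `j`. -/
noncomputable def coefB (M : ℕ) (τ β u : ℝ) (z : Fin (M + 1) × Fin n → ℝ) (j : ℕ) : Fin (M + 1) → ℝ :=
  Fin.cons (√u) fun c : Fin M =>
    if c.1 < j then β * alph M τ (idl M τ β u (gZ z) (xZ z)) (j - 1) c.1 else 0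

/-- Uniform concentration at the scalar channels. -/
def Conc (M : ℕ) (B ε₀ β u : ℝ) (z : Fin (M + 1) × Fin n → ℝ) : Prop :=
  ∀ b ∈ box (M + 1) B, nrm (comb b z) ≤ √n * (√(∑ c, b c ^ 2) + ε₀) ∧ ∀ j ≤ M,
    |avgF lc (fun i => gam β u j + comb b z i) - nE (gam β u j) (∑ c, b c ^ 2) lc| ≤ ε₀ ∧
    |avgF tanh (fun i => gam β u j + comb b z i) - nE (gam β u j) (∑ c, b c ^ 2) tanh| ≤ ε₀ ∧
    |avgF (fun a => tanh a ^ 2) (fun i => gam β u j + comb b z i)
      - nE (gam β u j) (∑ c, b c ^ 2) fun a => tanh a ^ 2| ≤ ε₀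

theorem gam_nonneg (hu : 0 ≤ u) (j : ℕ) : 0 ≤ gam β u j := by
  have := ampQ_nonneg j
  unfold gam; positivity
where
  ampQ_nonneg (j : ℕ) : 0 ≤ ampQ (β ^ 2) u j := by
    cases j with
    | zero => simp [ampQ]
    | succ j => exact (Entropy.psi_mem _).1

theorem nE_tanh {γ : ℝ} (hγ : 0 ≤ γ) : nE γ γ tanh = Entropy.psi γ := by
  have hb : ∀ x, |tanh x| ≤ 1 := fun x => (abs_tanh_lt_one x).le
  have hb2 : ∀ x, |tanh x ^ 2| ≤ 1 := fun x => by
    rw [abs_of_nonneg (sq_nonneg _)]; exact Entropy.tanh_sq_le x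
  have h := Entropy.nE_odd (k := tanh) tanh_neg hγ
  have e : (fun x => tanh x * (1 - tanh x)) = fun x => 1 * tanh x + (-1) * tanh x ^ 2 := by
    funext x; ring
  rw [e, Entropy.nE_lin (F := tanh) (G := fun x => tanh x ^ 2) Entropy.continuous_tanh'
    (Entropy.continuous_tanh'.pow 2) hb hb2] at h
  unfold Entropy.psi
  linarith

theorem nE_sech (γ v : ℝ) :
    nE γ v (fun x => 1 - tanh x ^ 2) = 1 - nE γ v fun x => tanh x ^ 2 := by
  have hb2 : ∀ x, |tanh x ^ 2| ≤ 1 := fun x => by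
    rw [abs_of_nonneg (sq_nonneg _)]; exact Entropy.tanh_sq_le x
  simp only [nE]
  rw [integral_sub (integrable_const _)
    (Entropy.nE_int (F := fun x => tanh x ^ 2) (Entropy.continuous_tanh'.pow 2) hb2 γ v)]
  simp

theorem idl_repr (z : Fin (M + 1) × Fin n → ℝ) {j : ℕ} (hj : j ≤ M) :
    idl M τ β u (gZ z) (xZ z) j = fun i => gam β u j + comb (coefB M τ β u z j) z i := by
  funext i
  rw [idl_eq]
  simp only [idlNext, comb, coefB, Fin.sum_univ_succ, Fin.cons_zero, Fin.cons_succ, gam]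
  rw [Fin.sum_univ_eq_sum_range (fun c => if h : c < M then
      (if c < j then β * alph M τ (idl M τ β u (gZ z) (xZ z)) (j - 1) c else 0)
        * z (Fin.succ ⟨c, h⟩, i) else 0) M |>.symm.trans (sum_congr rfl fun c _ => dif_pos c.2) |>.symm,
    ← sum_subset (range_mono hj) fun c hc1 hc => by
      rw [mem_range, not_lt] at hc; simp [not_lt.2 hc]]
  rw [gZ, mul_sum, add_assoc _ (√u * z (0, i))]
  congr 2
  refine sum_congr rfl fun c hc => ?_
  have hc' := mem_range.1 hc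
  simp only [dif_pos (hc'.trans_le hj), if_pos hc', xZ, rows]
  ring

theorem coefB_sq (hu : 0 ≤ u) (z : Fin (M + 1) × Fin n → ℝ) {j : ℕ} (hj : j ≤ M) :
    ∑ c, coefB M τ β u z j c ^ 2
      = u + β ^ 2 * ∑ c ∈ range j, alph M τ (idl M τ β u (gZ z) (xZ z)) (j - 1) c ^ 2 := by
  simp only [coefB, Fin.sum_univ_succ, Fin.cons_zero, Fin.cons_succ, sq_sqrt hu]
  congr 1
  rw [Fin.sum_univ_eq_sum_range (fun c =>
    (if c < j then β * alph M τ (idl M τ β u (gZ z) (xZ z)) (j - 1) c else 0) ^ 2) M,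
    ← sum_subset (range_mono hj) fun c _ hc => by rw [mem_range] at hc; simp [hc], mul_sum]
  exact sum_congr rfl fun c hc => by rw [if_pos (mem_range.1 hc)]; ring

theorem coefB_box (hτ : 0 < τ) (hβ : 0 ≤ β) (hβ1 : β ≤ 1) {B : ℝ} (hB : √u ≤ B) (hB1 : 1 ≤ B)
    (z : Fin (M + 1) × Fin n → ℝ) (j : ℕ) : coefB M τ β u z j ∈ box (M + 1) B := by
  intro c
  cases c using Fin.cases with
  | zero => simpa [coefB, abs_of_nonneg (sqrt_nonneg u)] using hB
  | succ c =>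
    simp only [coefB, Fin.cons_succ]
    split_ifs
    · rw [abs_mul, abs_of_nonneg hβ]
      exact ((mul_le_of_le_one_left (abs_nonneg _) hβ1).trans (abs_alph_le hτ _ _ _)).trans hB1
    · rw [abs_zero]; linarith

/-- The accumulated error of the variances. -/
noncomputable def dlt (ε₀ : ℝ) : ℕ → ℝ
  | 0 => 0
  | j + 1 => dlt ε₀ j + (ε₀ + 2 * √(dlt ε₀ j) + ε₀ ^ 2)

theorem dlt_nonneg {ε₀ : ℝ} (h : 0 ≤ ε₀) : ∀ j, 0 ≤ dlt ε₀ j
  | 0 => le_rfl
  | j + 1 => by have := dlt_nonneg h j; simp only [dlt]; positivity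

theorem dlt_mono {ε₀ : ℝ} (h : 0 ≤ ε₀) : Monotone (dlt ε₀) :=
  monotone_nat_of_le_succ fun j => by
    have := dlt_nonneg h j
    simp only [dlt]
    linarith [sqrt_nonneg (dlt ε₀ j), sq_nonneg ε₀]

theorem continuous_dlt (j : ℕ) : Continuous fun e => dlt e j := by
  induction j with
  | zero => simp only [dlt]; exact continuous_const
  | succ j ih => simp only [dlt]; fun_prop

theorem dlt_zero (j : ℕ) : dlt 0 j = 0 := by
  induction j with
  | zero => rfl
  | succ j ih => simp [dlt, ih]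

/-- The variance of the field at time `j` is the predicted one. -/
theorem var_close {ε₀ B : ℝ} {z : Fin (M + 1) × Fin n → ℝ} (hC : Conc M B ε₀ β u z)
    (hτ : 0 < τ) (hτε : τ ≤ ε₀) (hu : 0 ≤ u) (hβ : 0 ≤ β) (hβ1 : β ≤ 1) (hB : √u ≤ B) (hB1 : 1 ≤ B) :
    ∀ j ≤ M, |∑ c, coefB M τ β u z j c ^ 2 - gam β u j| ≤ dlt ε₀ j := by
  intro j
  induction j with
  | zero =>
    intro _
    rw [coefB_sq hu z (Nat.zero_le _)]
    simp [gam, ampQ, dlt]
  | succ j ih =>
    intro hj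
    set Y := idl M τ β u (gZ z) (xZ z) with hY
    have ihj := ih (by omega)
    have hv := (hC _ (coefB_box hτ hβ hβ1 hB hB1 z j)).2 j (by omega)
    rw [← idl_repr z (by omega : j ≤ M), ← hY] at hv
    have h2 : |avgF (fun a => tanh a ^ 2) (Y j) - ampQ (β ^ 2) u (j + 1)|
        ≤ ε₀ + 2 * √(dlt ε₀ j) := by
      refine (abs_sub_le _ (nE (gam β u j) (∑ c, coefB M τ β u z j c ^ 2) fun a => tanh a ^ 2) _).trans
        (add_le_add hv.2.2 ?_)
      refine (nE_var_le (L := 2) tanh_sq_lip _ (gam β u j) _ (gam β u j)).trans ?_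
      rw [sub_self, abs_zero, zero_add]
      exact mul_le_mul_of_nonneg_left ((abs_sqrt_sub_le (sum_nonneg fun c _ => sq_nonneg _)
        (gam_nonneg hu j)).trans (sqrt_le_sqrt ihj)) zero_le_two
    -- the squared coefficients against the squared length
    set S := ∑ c ∈ range (j + 1), alph M τ Y j c ^ 2
    have hw : wOf Y j ⬝ᵥ wOf Y j = avgF (fun a => tanh a ^ 2) (Y j) := by
      simp only [dotProduct, wOf, avgF, sum_div]
      exact sum_congr rfl fun i _ => by rw [div_mul_div_comm, mul_self_sqrt (Nat.cast_nonneg n), pow_two]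
    have hs := dirs_split (M := M) hτ (wOf Y) (range (j + 1)) (wOf Y j)
    have ht := pow_le_pow_left₀ (nrm_nonneg _) (dirs_tail hτ (wOf Y) (by omega : j < M)) 2
    rw [hw] at hs
    have hs' : avgF (fun a => tanh a ^ 2) (Y j) = S
      + nrm (wOf Y j - ∑ c ∈ range (j + 1), (dirs M τ (wOf Y) c ⬝ᵥ wOf Y j) • dirs M τ (wOf Y) c) ^ 2 := hs
    have hS : |S - ampQ (β ^ 2) u (j + 1)| ≤ ε₀ + 2 * √(dlt ε₀ j) + ε₀ ^ 2 := by
      have hp := pow_le_pow_left₀ hτ.le hτε 2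
      have h3 := abs_le.1 h2
      have h4 := sq_nonneg (nrm (wOf Y j
        - ∑ c ∈ range (j + 1), (dirs M τ (wOf Y) c ⬝ᵥ wOf Y j) • dirs M τ (wOf Y) c))
      rw [abs_le]; constructor <;> linarith [sq_nonneg ε₀]
    have hd := dlt_nonneg (hτ.le.trans hτε) j
    rw [coefB_sq hu z hj, ← hY, add_tsub_cancel_right, gam,
      show u + β ^ 2 * S - (u + β ^ 2 * ampQ (β ^ 2) u (j + 1))
        = β ^ 2 * (S - ampQ (β ^ 2) u (j + 1)) by ring, abs_mul, abs_of_nonneg (sq_nonneg β)]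
    refine (mul_le_of_le_one_left (abs_nonneg _) (pow_le_one₀ hβ hβ1)).trans ?_
    simp only [dlt]
    linarith

theorem sd_close {ε₀ B : ℝ} {z : Fin (M + 1) × Fin n → ℝ} (hC : Conc M B ε₀ β u z)
    (hτ : 0 < τ) (hτε : τ ≤ ε₀) (hu : 0 ≤ u) (hβ : 0 ≤ β) (hβ1 : β ≤ 1) (hB : √u ≤ B) (hB1 : 1 ≤ B)
    {j : ℕ} (hj : j ≤ M) :
    |√(∑ c, coefB M τ β u z j c ^ 2) - √(gam β u j)| ≤ √(dlt ε₀ M) :=
  (abs_sqrt_sub_le (sum_nonneg fun _ _ => sq_nonneg _) (gam_nonneg hu j)).trans (sqrt_le_sqrt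
    ((var_close hC hτ hτε hu hβ hβ1 hB hB1 j hj).trans (dlt_mono (hτ.le.trans hτε) hj)))

/-- The accuracy of the good event. -/
noncomputable def goodEps (ε₀ : ℝ) (M : ℕ) : ℝ := ε₀ + 12 * √ε₀ + 2 * √(dlt ε₀ M)

theorem good_of {ε₀ B : ℝ} {z : Fin (M + 1) × Fin n → ℝ} {d : Dis n} (hC : Conc M B ε₀ β u z)
    (hε₀ : 0 < ε₀) (hε₁ : ε₀ ≤ 1) (hu : 0 ≤ u) (hβ : 0 ≤ β) (hβ1 : β ≤ 1) (hB : √u ≤ B) (hB3 : 3 ≤ B)
    (hn : 0 < n) (hnorm : ‖kmat n β d‖ ≤ 2 * β + 1)
    (happ : ∀ k < M, goe n d *ᵥ dirs M ε₀ (wOf (idl M ε₀ β u (gZ z) (xZ z))) k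
      = (dirs M ε₀ (wOf (idl M ε₀ β u (gZ z) (xZ z))) k ⬝ᵥ dirs M ε₀ (wOf (idl M ε₀ β u (gZ z) (xZ z))) k) •
        (xZ z k + ((√2 - 1) * (dirs M ε₀ (wOf (idl M ε₀ β u (gZ z) (xZ z))) k ⬝ᵥ xZ z k))
            • dirs M ε₀ (wOf (idl M ε₀ β u (gZ z) (xZ z))) k
          + ∑ c ∈ range k, ((dirs M ε₀ (wOf (idl M ε₀ β u (gZ z) (xZ z))) k ⬝ᵥ xZ z c)
            - dirs M ε₀ (wOf (idl M ε₀ β u (gZ z) (xZ z))) c ⬝ᵥ xZ z k)
            • dirs M ε₀ (wOf (idl M ε₀ β u (gZ z) (xZ z))) c))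
    (hslice : ∀ c k, c ≤ k → k < M → z ∉ sliceBad M ε₀ β u ε₀ c k) :
    Good M ε₀ β u (goodEps ε₀ M) (gZ z) (xZ z) d := by
  have hB1 : 1 ≤ B := by linarith
  set Y := idl M ε₀ β u (gZ z) (xZ z) with hY
  have hse : ε₀ ≤ goodEps ε₀ M := by unfold goodEps; linarith [sqrt_nonneg ε₀, sqrt_nonneg (dlt ε₀ M)]
  have hbox := coefB_box (u := u) hε₀ hβ hβ1 hB hB1 z
  have hsd := fun j hj => sd_close hC hε₀ le_rfl hu hβ hβ1 hB hB1 (j := j) hj
  refine ⟨hnorm, happ, fun a ha => ?_, fun c k hck hk => ?_, fun j hj => ?_, fun j hj => ?_, fun c j hcj hj => ?_⟩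
  · have hb : (Fin.cons 0 fun c : Fin M => a c : Fin (M + 1) → ℝ) ∈ box (M + 1) B := fun c => by
      cases c using Fin.cases with
      | zero => simp; linarith
      | succ c => simpa using (ha c c.2).trans hB3
    have h := (hC _ hb).1
    have e1 : comb (Fin.cons 0 fun c : Fin M => a c : Fin (M + 1) → ℝ) z
        = ∑ c ∈ range M, a c • xZ z c := by
      funext i
      simp only [comb, Fin.sum_univ_succ, Fin.cons_zero, Fin.cons_succ, zero_mul, zero_add,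
        Finset.sum_apply, Pi.smul_apply, smul_eq_mul]
      rw [← Fin.sum_univ_eq_sum_range (fun c => a c * xZ z c i) M]
      exact sum_congr rfl fun c _ => by simp [xZ, rows]
    have e2 : ∑ c, (Fin.cons 0 fun c : Fin M => a c : Fin (M + 1) → ℝ) c ^ 2
        = ∑ c ∈ range M, a c ^ 2 := by
      simp only [Fin.sum_univ_succ, Fin.cons_zero, Fin.cons_succ]
      rw [← Fin.sum_univ_eq_sum_range (fun c => a c ^ 2) M]
      ring
    rw [e1, e2] at h
    exact h.trans (mul_le_mul_of_nonneg_left (add_le_add le_rfl hse) (sqrt_nonneg _))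
  · have h := hslice c k hck hk
    simp only [sliceBad, Set.mem_ofPred_eq, not_lt] at h
    exact h.trans (mul_le_mul_of_nonneg_right hse (sqrt_nonneg _))
  · have hv := ((hC _ (hbox j)).2 j hj.le).2.1
    rw [← idl_repr z hj.le] at hv
    rw [show ampQ (β ^ 2) u (j + 1) = nE (gam β u j) (gam β u j) tanh from (nE_tanh (gam_nonneg hu j)).symm]
    refine (abs_sub_le _ (nE (gam β u j) (∑ c, coefB M ε₀ β u z j c ^ 2) tanh) _).trans ?_
    refine (add_le_add hv ((nE_var_le (L := 1) tanh_lip _ _ _ _).trans (le_of_eq (one_mul _)))).trans ?_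
    rw [sub_self, abs_zero, zero_add, goodEps]
    linarith [hsd j hj.le, sqrt_nonneg ε₀, sqrt_nonneg (dlt ε₀ M)]
  · have hv := ((hC _ (hbox j)).2 j hj.le).2.2
    rw [← idl_repr z hj.le] at hv
    show |avgF (fun a => tanh a ^ 2) (Y j) - nE (gam β u j) (gam β u j) fun a => tanh a ^ 2| ≤ _
    refine (abs_sub_le _ (nE (gam β u j) (∑ c, coefB M ε₀ β u z j c ^ 2) fun a => tanh a ^ 2) _).trans ?_
    refine (add_le_add hv (nE_var_le (L := 2) tanh_sq_lip _ _ _ _)).trans ?_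
    rw [sub_self, abs_zero, zero_add, goodEps]
    linarith [hsd j hj.le, sqrt_nonneg ε₀]
  · set b := coefB M ε₀ β u z j
    set k : Fin (M + 1) := Fin.succ ⟨c, hcj.trans hj⟩
    have hbk : b k = β * alph M ε₀ Y (j - 1) c := by
      simp only [b, k, coefB, Fin.cons_succ, if_pos hcj, Y]
    set s := √ε₀
    have hs : 0 < s := sqrt_pos.2 hε₀
    have hs1 : s ≤ 1 := sqrt_le_one.2 hε₁
    have hα := abs_alph_le (M := M) hε₀ Y (j - 1) c
    have hb' : b + Pi.single k s ∈ box (M + 1) B := fun a => by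
      by_cases h : a = k
      · subst h
        simp only [Pi.add_apply, Pi.single_eq_same, hbk]
        refine (abs_add_le _ _).trans ?_
        rw [abs_mul, abs_of_nonneg hβ, abs_of_nonneg hs.le]
        linarith [(mul_le_of_le_one_left (abs_nonneg _) hβ1).trans hα]
      · simp only [Pi.add_apply, Pi.single_eq_of_ne h, add_zero]; exact hbox j a
    have he : Pi.single k 1 ∈ box (M + 1) B := fun a => by
      by_cases h : a = k <;> simp [h] <;> linarith
    have hlen := (hC _ he).1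
    have e2 : comb (Pi.single k 1) z = fun i => z (k, i) := by
      funext i; simp [comb, Pi.single_apply]
    rw [e2, sum_eq_single k (fun a _ ha => by simp [ha]) (by simp)] at hlen
    simp only [Pi.single_eq_same, one_pow, sqrt_one] at hlen
    have hR : ∑ i, z (k, i) ^ 2 ≤ 4 * (n : ℝ) := by
      rw [← nrm_sq]
      refine (pow_le_pow_left₀ (nrm_nonneg _) hlen 2).trans ?_
      rw [mul_pow, sq_sqrt (Nat.cast_nonneg n), mul_comm]
      exact mul_le_mul_of_nonneg_right (by nlinarith) (Nat.cast_nonneg n)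
    have h := onsager hn b k (gam β u j) hs z hR ((hC _ (hbox j)).2 j hj.le).1
      ((hC _ hb').2 j hj.le).1
    rw [hbk] at h
    have eR : (xZ z c ⬝ᵥ fun i => tanh (Y j i)) / (n : ℝ)
        = (∑ i, z (k, i) * tanh (gam β u j + comb b z i)) / n := by
      rw [hY, idl_repr z hj.le]
      simp [dotProduct, xZ, rows, hcj.trans hj, k, b]
    rw [eR]
    set G := (∑ i, z (k, i) * tanh (gam β u j + comb b z i)) / (n : ℝ)
    set W := nE (gam β u j) (∑ a, b a ^ 2) fun x => 1 - tanh x ^ 2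
    have hW : |W - (1 - ampQ (β ^ 2) u (j + 1))| ≤ 2 * √(dlt ε₀ M) := by
      simp only [W, nE_sech]
      rw [show ∀ p q : ℝ, 1 - p - (1 - q) = -(p - q) from fun p q => by ring, abs_neg]
      refine (nE_var_le (L := 2) tanh_sq_lip _ (gam β u j) _ (gam β u j)).trans ?_
      rw [sub_self, abs_zero, zero_add]
      exact mul_le_mul_of_nonneg_left (hsd j hj.le) zero_le_two
    have hse' : 2 * ε₀ / s + (2 * 4 + 2) * s = 12 * √ε₀ := by
      rw [show 2 * ε₀ / s = 2 * s by rw [mul_div_assoc, Real.div_sqrt]]; ring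
    have h1 : |β * G - β * (β * alph M ε₀ Y (j - 1) c * W)| ≤ 12 * √ε₀ := by
      rw [← mul_sub, abs_mul, abs_of_nonneg hβ, ← hse']
      exact (mul_le_of_le_one_left (abs_nonneg _) hβ1).trans h
    have h2 : |β * (β * alph M ε₀ Y (j - 1) c * W)
        - β ^ 2 * alph M ε₀ Y (j - 1) c * (1 - ampQ (β ^ 2) u (j + 1))| ≤ 2 * √(dlt ε₀ M) := by
      rw [show β * (β * alph M ε₀ Y (j - 1) c * W)
          - β ^ 2 * alph M ε₀ Y (j - 1) c * (1 - ampQ (β ^ 2) u (j + 1))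
        = β ^ 2 * alph M ε₀ Y (j - 1) c * (W - (1 - ampQ (β ^ 2) u (j + 1))) by ring, abs_mul, abs_mul,
        abs_of_nonneg (sq_nonneg β)]
      exact (mul_le_of_le_one_left (abs_nonneg _)
        (mul_le_one₀ (pow_le_one₀ hβ hβ1) (abs_nonneg _) hα)).trans hW
    refine (abs_sub_le _ (β * (β * alph M ε₀ Y (j - 1) c * W)) _).trans ?_
    rw [goodEps]
    linarith

/-- Lipschitz statistics of the last field. -/
theorem stat_of {ε₀ B : ℝ} {z : Fin (M + 1) × Fin n → ℝ} {F : ℝ → ℝ} {L : ℝ}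
    (hF : ∀ x y, |F x - F y| ≤ L * |x - y|) (hC : Conc M B ε₀ β u z) {J : ℕ} (hJ : J ≤ M)
    (hτ : 0 < ε₀) (hu : 0 ≤ u) (hβ : 0 ≤ β) (hβ1 : β ≤ 1) (hB : √u ≤ B) (hB1 : 1 ≤ B)
    (hFc : ∀ b ∈ box (M + 1) B, |avgF F (fun i => gam β u J + comb b z i)
      - nE (gam β u J) (∑ c, b c ^ 2) F| ≤ ε₀) :
    |avgF F (idl M ε₀ β u (gZ z) (xZ z) J) - nE (gam β u J) (gam β u J) F|
      ≤ ε₀ + L * √(dlt ε₀ M) := by
  have hL : 0 ≤ L := by simpa using (abs_nonneg _).trans (hF 1 0)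
  have hv := hFc _ (coefB_box (M := M) (u := u) hτ hβ hβ1 hB hB1 z J)
  rw [← idl_repr z hJ] at hv
  refine (abs_sub_le _ (nE (gam β u J) (∑ c, coefB M ε₀ β u z J c ^ 2) F) _).trans (add_le_add hv ?_)
  refine (nE_var_le hF _ _ _ _).trans ?_
  rw [sub_self, abs_zero, zero_add]
  exact mul_le_mul_of_nonneg_left (sd_close hC hτ le_rfl hu hβ hβ1 hB hB1 hJ) hL

end Vale.Agent.P150.Fast.Amp
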