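import Vale.Agent.P150.Fast.Amp.Stmt
import Vale.Agent.P150.Fast.Amp.Inn
import Vale.Agent.P150.Fast.Amp.Dirs
import Vale.Agent.P150.Fast.Amp.Conc

/-!
The ideal process behind AMP (P150, module M6 part B): the fields are built from the side field and
independent standard vectors; its directions serve as the rule for the innovations.
-/

open MeasureTheory Real Finset
open scoped Matrix

namespace Vale.Agent.P150.Fast.Amp

open LL (nrm nrm_nonneg nrm_sq nrm_add)

variable {n M : ℕ} {τ β u : ℝ}

/-- The normalised means. -/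
noncomputable def wOf (Y : ℕ → Fin n → ℝ) (j : ℕ) : Fin n → ℝ := fun i => tanh (Y j i) / √n

/-- The coefficient of direction `c` in the means at time `j`. -/
noncomputable def alph (M : ℕ) (τ : ℝ) (Y : ℕ → Fin n → ℝ) (j c : ℕ) : ℝ :=
  dirs M τ (wOf Y) c ⬝ᵥ wOf Y j

/-- One ideal step from the earlier fields. -/
noncomputable def idlNext (M : ℕ) (τ β u : ℝ) (g : Fin n → ℝ) (x : ℕ → Fin n → ℝ)
    (Y : ℕ → Fin n → ℝ) (j : ℕ) : Fin n → ℝ :=
  fun i => u + β ^ 2 * ampQ (β ^ 2) u j + √u * g i + β * ∑ c ∈ range j, alph M τ Y (j - 1) c * x c i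

theorem wOf_congr {Y Y' : ℕ → Fin n → ℝ} {i : ℕ} (h : Y i = Y' i) : wOf Y i = wOf Y' i := by
  unfold wOf; rw [h]

theorem alph_congr {Y Y' : ℕ → Fin n → ℝ} {j c : ℕ} (hcj : c ≤ j) (h : ∀ i ≤ j, Y i = Y' i) :
    alph M τ Y j c = alph M τ Y' j c := by
  unfold alph
  rw [dirs_congr fun i hi => wOf_congr (h i (hi.trans hcj)), wOf_congr (h j le_rfl)]

theorem idlNext_congr {g : Fin n → ℝ} {x x' Y Y' : ℕ → Fin n → ℝ} {j : ℕ}
    (hY : ∀ i < j, Y i = Y' i) (hx : ∀ i < j, x i = x' i) :
    idlNext M τ β u g x Y j = idlNext M τ β u g x' Y' j := by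
  funext i
  simp only [idlNext]
  congr 2
  refine sum_congr rfl fun c hc => ?_
  have hc' := mem_range.1 hc
  rw [alph_congr (by omega) fun b hb => hY b (by omega), hx c hc']

/-- The ideal fields. -/
noncomputable def idl (M : ℕ) (τ β u : ℝ) (g : Fin n → ℝ) (x : ℕ → Fin n → ℝ) : ℕ → Fin n → ℝ
  | j => idlNext M τ β u g x (fun k => if _h : k < j then idl M τ β u g x k else 0) j
  termination_by j => j

theorem idl_eq (g : Fin n → ℝ) (x : ℕ → Fin n → ℝ) (j : ℕ) :
    idl M τ β u g x j = idlNext M τ β u g x (idl M τ β u g x) j := by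
  rw [idl]
  exact idlNext_congr (fun i hi => dif_pos hi) fun _ _ => rfl

theorem idl_congr {g : Fin n → ℝ} {x x' : ℕ → Fin n → ℝ} :
    ∀ j, (∀ i < j, x i = x' i) → idl M τ β u g x j = idl M τ β u g x' j := by
  intro j
  induction j using Nat.strong_induction_on with
  | _ j ih =>
    intro hx
    rw [idl_eq, idl_eq g x']
    exact idlNext_congr (fun i hi => ih i hi fun b hb => hx b (hb.trans hi)) hx

theorem idl_zero (g : Fin n → ℝ) (x : ℕ → Fin n → ℝ) :
    idl M τ β u g x 0 = plantH u g := by
  rw [idl_eq]; funext i; simp [idlNext, plantH, ampQ]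

theorem measurable_idl {α : Type*} [MeasurableSpace α] {g : α → Fin n → ℝ} {x : α → ℕ → Fin n → ℝ}
    (hg : Measurable g) (hx : ∀ i, Measurable fun a => x a i) :
    ∀ j, Measurable fun a => idl M τ β u (g a) (x a) j := by
  intro j
  induction j using Nat.strong_induction_on with
  | _ j ih =>
    have e : (fun a => idl M τ β u (g a) (x a) j) = fun a => idlNext M τ β u (g a) (x a)
        (fun k => if k < j then idl M τ β u (g a) (x a) k else 0) j := by
      funext a; rw [idl_eq]
      exact idlNext_congr (fun i hi => (if_pos hi).symm) fun _ _ => rfl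
    rw [e]
    set Y : α → ℕ → Fin n → ℝ := fun a k => if k < j then idl M τ β u (g a) (x a) k else 0
    have hY : ∀ k, Measurable fun a => Y a k := fun k => by
      by_cases hk : k < j
      · simpa [Y, hk] using ih k hk
      · simp [Y, hk]
    have hw : ∀ k, Measurable fun a => wOf (Y a) k := fun k => by
      refine measurable_pi_lambda _ fun i => ?_
      exact ((Entropy.continuous_tanh'.measurable).comp ((measurable_pi_apply i).comp (hY k))).div_const _
    refine measurable_pi_lambda _ fun i => ?_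
    simp only [idlNext, alph, dotProduct]
    refine (measurable_const.add (((measurable_pi_apply i).comp hg).const_mul _)).add
      ((Finset.measurable_sum _ fun c _ => (Finset.measurable_sum _ fun k _ => ?_).mul
        ((measurable_pi_apply i).comp (hx c))).const_mul _)
    exact ((measurable_pi_apply k).comp (measurable_dirs hw c)).mul
      ((measurable_pi_apply k).comp (hw _))

/-- The rows of an array, continued by zero. -/
noncomputable def rows (x : Fin M × Fin n → ℝ) (c : ℕ) : Fin n → ℝ :=
  fun i => if h : c < M then x (⟨c, h⟩, i) else 0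

/-- Finitely many vectors, continued by zero. -/
noncomputable def pad {k : ℕ} (X : Fin k → Fin n → ℝ) (c : ℕ) : Fin n → ℝ :=
  if h : c < k then X ⟨c, h⟩ else 0

theorem measurable_rows (c : ℕ) : Measurable fun x : Fin M × Fin n → ℝ => rows x c := by
  refine measurable_pi_lambda _ fun i => ?_
  unfold rows; split_ifs <;> fun_prop

/-- The rule for the directions. -/
noncomputable def selA (M : ℕ) (τ β u : ℝ) (g : Fin n → ℝ) : Sel n :=
  fun k X => dirs M τ (wOf (idl M τ β u g (pad X))) k

theorem selA_ok (hτ : 0 < τ) (g : Fin n → ℝ) : (selA M τ β u g).Ok := fun _ _ => dirs_ok hτ _ _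

theorem measurable_selA {α : Type*} [MeasurableSpace α] {g : α → Fin n → ℝ} (hg : Measurable g)
    (k : ℕ) : Measurable fun p : α × (Fin k → Fin n → ℝ) => selA M τ β u (g p.1) k p.2 := by
  refine measurable_dirs (fun j => ?_) k
  refine measurable_pi_lambda _ fun i => ?_
  refine ((Entropy.continuous_tanh'.measurable).comp ((measurable_pi_apply i).comp
    (measurable_idl (hg.comp measurable_fst) (fun c => ?_) j))).div_const _
  by_cases hc : c < k
  · simpa [pad, hc, Function.comp_def] using (measurable_pi_apply (⟨c, hc⟩ : Fin k)).comp measurable_snd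
  · simp [pad, hc]

theorem selDir_selA (g : Fin n → ℝ) (x : Fin M × Fin n → ℝ) (k : Fin M) :
    selDir (selA M τ β u g) x k = dirs M τ (wOf (idl M τ β u g (rows x))) k.1 := by
  refine dirs_congr fun j hj => wOf_congr (idl_congr j fun i hi => ?_)
  have hik : i < k.1 := hi.trans_le hj
  funext a
  simp only [pad, dif_pos hik, rows, dif_pos (hik.trans k.2)]

theorem measurable_selA' (g : Fin n → ℝ) (k : ℕ) : Measurable (selA M τ β u g k) := by
  unfold selA
  refine measurable_dirs (fun j => ?_) k
  refine measurable_pi_lambda _ fun i => ?_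
  refine ((Entropy.continuous_tanh'.measurable).comp ((measurable_pi_apply i).comp
    (measurable_idl measurable_const (fun c => ?_) j))).div_const _
  by_cases hc : c < k
  · simpa [pad, hc, Function.comp_def] using
      measurable_pi_apply (X := fun _ : Fin k => Fin n → ℝ) (⟨c, hc⟩ : Fin k)
  · simp [pad, hc]

attribute [local irreducible] selA

/-- The innovations of the matrix together with the side field. -/
noncomputable def toIdeal (M : ℕ) (τ β u : ℝ)
    (p : (Dis n × (Fin n → ℝ)) × (Fin M × (Pair n ⊕ Fin n) → ℝ)) : Fin (M + 1) × Fin n → ℝ :=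
  rowJoin (p.1.2, inn M (selA M τ β u p.1.2) p.1.1 p.2)

theorem mp_toIdeal (hτ : 0 < τ) (β u : ℝ) : MeasurePreserving (toIdeal (n := n) M τ β u)
    (((disX n).prod (gp (Fin n))).prod (gp (Fin M × (Pair n ⊕ Fin n)))) (gp (Fin (M + 1) × Fin n)) := by
  have : IsProbabilityMeasure (disX n) := by unfold disX gp; infer_instance
  set γD := gp (Fin M × (Pair n ⊕ Fin n))
  have s1 : MeasurePreserving (Prod.map (Prod.swap : Dis n × (Fin n → ℝ) → _) id)
      (((disX n).prod (gp (Fin n))).prod γD) (((gp (Fin n)).prod (disX n)).prod γD) :=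
    (Measure.measurePreserving_swap).prod (MeasurePreserving.id _)
  have s2 : MeasurePreserving (MeasurableEquiv.prodAssoc (α := Fin n → ℝ) (β := Dis n)
      (γ := Fin M × (Pair n ⊕ Fin n) → ℝ)) (((gp (Fin n)).prod (disX n)).prod γD)
      ((gp (Fin n)).prod ((disX n).prod γD)) := measurePreserving_prodAssoc _ _ _
  have hm : Measurable (Function.uncurry fun (g : Fin n → ℝ)
      (q : Dis n × (Fin M × (Pair n ⊕ Fin n) → ℝ)) => inn M (selA M τ β u g) q.1 q.2) :=
    measurable_inn M (selA (n := n) M τ β u) (fun k => measurable_selA measurable_id k)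
  have s3 : MeasurePreserving
      (fun p : (Fin n → ℝ) × Dis n × (Fin M × (Pair n ⊕ Fin n) → ℝ) =>
        (id p.1, inn M (selA M τ β u p.1) p.2.1 p.2.2))
      ((gp (Fin n)).prod ((disX n).prod γD)) ((gp (Fin n)).prod (gp (Fin M × Fin n))) := by
    refine MeasurePreserving.skew_product (f := id)
      (g := fun (g : Fin n → ℝ) (q : Dis n × (Fin M × (Pair n ⊕ Fin n) → ℝ)) =>
        inn M (selA M τ β u g) q.1 q.2) (MeasurePreserving.id _) hm (ae_of_all _ fun g => ?_)
    exact (mp_inn M (selA M τ β u g) (selA_ok hτ g) (measurable_selA' g)).map_eq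
  have s4 := s3.comp (s2.comp s1)
  exact mp_rowJoin.comp s4

/-- Bad events of the disorder and the side field are covered by bad events of the ideal vectors. -/
theorem prob_le_ideal (hτ : 0 < τ) (β u : ℝ) (A : Set (Dis n × (Fin n → ℝ)))
    (S : Set (Fin (M + 1) × Fin n → ℝ)) :
    ((disX n).prod (gp (Fin n))).real {p | p ∈ A ∧ ∀ D, toIdeal M τ β u (p, D) ∈ S}
      ≤ (gp (Fin (M + 1) × Fin n)).real S := by
  have : IsProbabilityMeasure (disX n) := by unfold disX gp; infer_instance
  set B := {p : Dis n × (Fin n → ℝ) | p ∈ A ∧ ∀ D, toIdeal M τ β u (p, D) ∈ S}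
  set ν := gp (Fin (M + 1) × Fin n)
  set μ := (disX n).prod (gp (Fin n))
  set γD := gp (Fin M × (Pair n ⊕ Fin n))
  have h1 : (μ.prod γD) (B ×ˢ (Set.univ : Set (Fin M × (Pair n ⊕ Fin n) → ℝ))) ≤ ν S := by
    refine (measure_mono fun q hq => ?_).trans
      ((mp_toIdeal (M := M) hτ β u).measure_preimage_le S)
    exact hq.1.2 q.2
  rw [Measure.prod_prod, measure_univ, mul_one] at h1
  exact ENNReal.toReal_mono (measure_ne_top _ _) h1

/-- An exponentially small event: a direction sees the fresh vector. -/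
def sliceBad (M : ℕ) (τ β u ε : ℝ) (c k : ℕ) : Set (Fin (M + 1) × Fin n → ℝ) :=
  {z | ε * √(n : ℝ) < |dirs M τ (wOf (idl M τ β u (fun i => z (0, i))
    (rows fun p => z (p.1.succ, p.2)))) c ⬝ᵥ rows (fun p => z (p.1.succ, p.2)) k|}

theorem measurableSet_sliceBad (ε : ℝ) (c k : ℕ) :
    MeasurableSet (sliceBad (n := n) M τ β u ε c k) := by
  set X : (Fin (M + 1) × Fin n → ℝ) → ℕ → Fin n → ℝ := fun z => rows fun p : Fin M × Fin n => z (p.1.succ, p.2)
  have hX : ∀ j, Measurable fun z => X z j := fun j =>
    (measurable_rows j).comp (measurable_pi_lambda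
      (fun (z : Fin (M + 1) × Fin n → ℝ) (p : Fin M × Fin n) => z (p.1.succ, p.2))
      fun p => measurable_pi_apply _)
  have hw : ∀ j, Measurable fun z : Fin (M + 1) × Fin n → ℝ =>
      wOf (idl M τ β u (fun i => z (0, i)) (X z)) j := fun j => by
    refine measurable_pi_lambda _ fun i => ?_
    exact ((Entropy.continuous_tanh'.measurable).comp ((measurable_pi_apply i).comp
      (measurable_idl (measurable_pi_lambda _ fun i => by fun_prop) hX j))).div_const _
  refine measurableSet_lt measurable_const (Measurable.abs ?_)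
  simp only [dotProduct]
  exact Finset.measurable_sum _ fun i _ => ((measurable_pi_apply i).comp (measurable_dirs hw c)).mul
    ((measurable_pi_apply i).comp (hX k))

theorem sliceBad_prob (hτ : 0 < τ) (hn : 0 < n) {ε : ℝ} (hε : 0 < ε) {c k : ℕ} (hck : c ≤ k)
    (hk : k < M) : (gp (Fin (M + 1) × Fin n)).real (sliceBad M τ β u ε c k)
      ≤ 2 * exp (-(2 * ε ^ 2 * n / π ^ 2)) := by
  classical
  set r : Fin (M + 1) := Fin.succ ⟨k, hk⟩
  -- replacing row `r` by a fresh vector preserves the law
  set T : Fin (M + 1) × Fin n → Fin n ⊕ (Fin (M + 1) × Fin n) → ℝ := fun q =>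
    Sum.elim (fun i => if q.1 = r ∧ i = q.2 then 1 else 0) (fun p => if q.1 ≠ r ∧ p = q then 1 else 0)
  have hT : ∀ (v : Fin n → ℝ) (z : Fin (M + 1) × Fin n → ℝ) q,
      Dom.arrMap T (Sum.elim v z) q = if q.1 = r then v q.2 else z q := fun v z q => by
    rw [Dom.arrMap_apply, Fintype.sum_sum_type]
    by_cases h : q.1 = r <;> simp [T, h, ite_and]
  have hlaw := Dom.map_gp_eq T (fun q p => if p = q then 1 else 0) fun w => by
    have hq : ∀ p, ∑ q, w q * (if p = q then (1 : ℝ) else 0) = w p := fun p => by simp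
    simp only [hq]
    rw [Fintype.sum_sum_type]
    have e1 : ∀ i, ∑ q, w q * T q (Sum.inl i) = w (r, i) := fun i => by
      rw [Finset.sum_eq_single (r, i)]
      · simp [T]
      · rintro ⟨a, b⟩ _ hne
        simp only [T, Sum.elim_inl, mul_ite, mul_one, mul_zero, ite_eq_right_iff]
        rintro ⟨rfl, rfl⟩; exact absurd rfl hne
      · simp
    have e2 : ∀ p, ∑ q, w q * T q (Sum.inr p) = if p.1 = r then 0 else w p := fun p => by
      rw [Finset.sum_eq_single p]
      · by_cases h : p.1 = r <;> simp [T, h]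
      · intro q _ hne; simp [T, Ne.symm hne]
      · simp
    simp only [e1, e2, ite_pow]
    rw [Fintype.sum_prod_type (fun p : Fin (M + 1) × Fin n => w p ^ 2),
      Fintype.sum_prod_type (fun p : Fin (M + 1) × Fin n => if p.1 = r then (0 : ℝ) ^ 2 else w p ^ 2),
      ← add_sum_erase univ (fun a => ∑ i, w (a, i) ^ 2) (mem_univ r),
      ← add_sum_erase univ _ (mem_univ r)]
    simp only [if_true, zero_pow two_ne_zero, sum_const_zero, zero_add]
    congr 1
    exact sum_congr rfl fun a ha => by simp [(mem_erase.1 ha).1]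
  have hid : (gp (Fin (M + 1) × Fin n)).map (Dom.arrMap fun q p => if p = q then (1 : ℝ) else 0)
      = gp (Fin (M + 1) × Fin n) := by
    conv_rhs => rw [← Measure.map_id (μ := gp (Fin (M + 1) × Fin n))]
    congr 1; funext x q; simp [Dom.arrMap_apply]
  have mp : MeasurePreserving (fun p : (Fin n → ℝ) × (Fin (M + 1) × Fin n → ℝ) =>
      Dom.arrMap T (Sum.elim p.1 p.2)) ((gp (Fin n)).prod (gp (Fin (M + 1) × Fin n)))
      (gp (Fin (M + 1) × Fin n)) := by
    have h1 := (measurePreserving_sumPiEquivProdPi_symm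
      fun _ : Fin n ⊕ (Fin (M + 1) × Fin n) => ProbabilityTheory.gaussianReal 0 1)
    have h2 : MeasurePreserving (Dom.arrMap T) (gp _) (gp (Fin (M + 1) × Fin n)) :=
      ⟨(Dom.arrMap T).continuous.measurable, hlaw.trans hid⟩
    have h3 := h2.comp h1
    convert h3 using 1
    funext p
    simp only [Function.comp_apply]
    congr 1
    · rw [gp, gp]
  have hm := measurableSet_sliceBad (n := n) (M := M) (τ := τ) (β := β) (u := u) ε c k
  rw [measureReal_def, ← mp.measure_preimage hm.nullMeasurableSet, Measure.prod_apply_symm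
    (mp.measurable hm)]
  refine ENNReal.toReal_le_of_le_ofReal (by positivity) ?_
  refine (lintegral_mono (g := fun _ => ENNReal.ofReal (2 * exp (-(2 * ε ^ 2 * n / π ^ 2))))
    fun z => ?_).trans (by simp)
  set w : Fin n → ℝ := dirs M τ (wOf (idl M τ β u (fun i => z (0, i))
    (rows fun p => z (p.1.succ, p.2)))) c
  have hsub : (fun v => (v, z)) ⁻¹' ((fun p : (Fin n → ℝ) × (Fin (M + 1) × Fin n → ℝ) =>
      Dom.arrMap T (Sum.elim p.1 p.2)) ⁻¹' sliceBad M τ β u ε c k)
      ⊆ {v | ε / √n * n < |∑ i, v i * w i|} := by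
    intro v hv
    simp only [Set.mem_preimage, sliceBad, Set.mem_ofPred_eq, hT] at hv
    have e0 : (fun i => if (0 : Fin (M + 1)) = r then v i else z (0, i)) = fun i => z (0, i) := by
      simp [r]
    have ek : rows (fun p : Fin M × Fin n => if p.1.succ = r then v p.2 else z (p.1.succ, p.2)) k = v := by
      funext i; simp [rows, hk, r]
    have ec : dirs M τ (wOf (idl M τ β u (fun i => z (0, i))
        (rows fun p : Fin M × Fin n => if p.1.succ = r then v p.2 else z (p.1.succ, p.2)))) c = w := by
      refine dirs_congr fun j hj => wOf_congr (idl_congr j fun i hi => ?_)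
      funext a
      have hik : i ≠ k := by omega
      simp only [rows]
      split_ifs with h1 h2
      · simp [r, Fin.ext_iff, hik] at h2
      all_goals rfl
    rw [e0, ek, ec] at hv
    simp only [Set.mem_ofPred_eq]
    have hsn : ε / √n * n = ε * √n := by
      field_simp
      rw [sq_sqrt (Nat.cast_nonneg n)]
    rw [hsn]
    simpa [dotProduct, mul_comm] using hv
  refine le_trans (measure_mono hsub) ?_
  rw [← ofReal_measureReal (measure_ne_top _ _)]
  refine ENNReal.ofReal_le_ofReal ((lin_tail gaussTail (c := w) (S := 1 / n) (by positivity) ?_ hn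
    (by positivity)).trans_eq ?_)
  · rw [one_div, inv_mul_cancel₀ (by exact_mod_cast hn.ne')]
    rcases dirs_ok (M := M) hτ (wOf (idl M τ β u (fun i => z (0, i))
      (rows fun p => z (p.1.succ, p.2)))) c with h | h
    · rw [← h]; simp [dotProduct, pow_two, w]
    · simp [w, h]
  · rw [div_pow, sq_sqrt (Nat.cast_nonneg n)]
    congr 3
    field_simp

end Vale.Agent.P150.Fast.Amp
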