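import Vale.Agent.P150.Fast.TransferStmt
import Vale.Agent.P150.Fast.Entropy.Scalar

/-!
The AMP centres and the exported statements of state evolution (P150, module M6, part B): in the
planted model, gauged to the all-ones configuration, the iterate is an approximate root of the TAP
equation with replica-symmetric statistics, outside exponentially small events.
-/

open MeasureTheory Real Finset Filter

namespace Vale.Agent.P150.Fast

variable {n : ℕ}

/-- The overlaps predicted by state evolution. -/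
noncomputable def ampQ (t u : ℝ) : ℕ → ℝ
  | 0 => 0
  | j + 1 => Entropy.psi (u + t * ampQ t u j)

/-- The AMP iteration: the previous means and the current field. -/
noncomputable def ampState (K : Matrix (Fin n) (Fin n) ℝ) (t u : ℝ) (h : Fin n → ℝ) :
    ℕ → (Fin n → ℝ) × (Fin n → ℝ)
  | 0 => (0, h)
  | j + 1 =>
    (fun i => tanh ((ampState K t u h j).2 i),
      fun i => h i + (∑ k, K i k * tanh ((ampState K t u h j).2 k))
        - t * (1 - ampQ t u (j + 1)) * (ampState K t u h j).1 i)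

/-- The field after `J` steps of AMP. -/
noncomputable def ampA (K : Matrix (Fin n) (Fin n) ℝ) (t u : ℝ) (h : Fin n → ℝ) (J : ℕ) :
    Fin n → ℝ :=
  (ampState K t u h J).2

/-- State evolution: after enough steps the iterate nearly solves the TAP equation, and the average
of a Lipschitz function of its coordinates is the one under `N (G, G)`, `G = u + t q_J`. -/
def StateEvoStmt : Prop :=
  ∀ β : ℝ, 0 ≤ β → β < 1 → ∀ U ε L : ℝ, 0 < ε → ∃ J₀ : ℕ, ∀ J, J₀ ≤ J → ∃ γ : ℝ, 0 < γ ∧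
    ∀ᶠ n : ℕ in atTop, ∀ u : ℝ, 0 ≤ u → u ≤ U →
      ((disX n).prod (gp (Fin n))).real {p | ε ^ 2 * n < ∑ i, fieldRes (plantK n β p.1)
        (plantH u p.2) (β ^ 2) (ampA (plantK n β p.1) (β ^ 2) u (plantH u p.2) J) i ^ 2}
        ≤ exp (-(γ * n)) ∧
      ∀ F : ℝ → ℝ, (∀ x y, |F x - F y| ≤ L * |x - y|) →
        ((disX n).prod (gp (Fin n))).real {p | ε <
          |(∑ i, F (ampA (plantK n β p.1) (β ^ 2) u (plantH u p.2) J i)) / (n : ℝ)
            - nE (u + β ^ 2 * ampQ (β ^ 2) u J) (u + β ^ 2 * ampQ (β ^ 2) u J) F|}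
          ≤ exp (-(γ * n))

/-- The iterate meets the conditions of the transfer. -/
def AmpRootStmt : Prop :=
  ∀ β : ℝ, 0 < β → β < 1 → ∀ δ : ℝ, 0 < δ → ∀ U ε : ℝ, 0 < ε → ∃ J₀ : ℕ, ∀ J, J₀ ≤ J →
    ∃ γ : ℝ, 0 < γ ∧ ∀ᶠ n : ℕ in atTop, ∀ u : ℝ, 0 ≤ u → u ≤ U → δ ≤ ampQ (β ^ 2) u J →
      ((disX n).prod (gp (Fin n))).real {p | ¬ (RsStats (β ^ 2) u (ampQ (β ^ 2) u J) ε
            (ampA (plantK n β p.1) (β ^ 2) u (plantH u p.2) J) ∧
          ∑ i, fieldRes (plantK n β p.1) (plantH u p.2) (β ^ 2)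
            (ampA (plantK n β p.1) (β ^ 2) u (plantH u p.2) J) i ^ 2 ≤ ε ^ 2 * n)}
        ≤ exp (-(γ * n))

end Vale.Agent.P150.Fast
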