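import Mathlib
import Vale.Agent.P150.Fast.Amp.Stmt

/-!
The five replica-symmetric statistics as tests: Lipschitz bounds and their exact values under
`N (G, G)`. Used for P150 (module M6, part B).
-/

open MeasureTheory ProbabilityTheory Real Finset

namespace Vale.Agent.P150.Fast.AmpRoot

open Entropy

/-- The weight `1 - tanh²`. -/
noncomputable def vF (x : ℝ) : ℝ := 1 - tanh x ^ 2

/-- The special direction. -/
noncomputable def wF (G x : ℝ) : ℝ := 2 * tanh x + (x - G) / G

/-- The five tests. -/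
noncomputable def testF (G : ℝ) : Fin 5 → ℝ → ℝ :=
  ![fun x => tanh x ^ 2, tanh, fun x => (x - G) * tanh x, fun x => vF x * wF G x,
    fun x => vF x * wF G x ^ 2]

/-- The Lipschitz constant of the tests for `g ≤ G ≤ C`. -/
noncomputable def lipC (g C : ℝ) : ℝ := (3 + C) + 4 * (2 + 1 / g) * (20 + 2 / g ^ 2)

theorem vF_mem (x : ℝ) : 0 ≤ vF x ∧ vF x ≤ 1 :=
  ⟨sub_nonneg.2 (tanh_sq_le x), sub_le_self _ (sq_nonneg _)⟩

theorem abs_tanh_le (x : ℝ) : |tanh x| ≤ 1 := (abs_tanh_lt_one x).le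

theorem hasDerivAt_vF (x : ℝ) : HasDerivAt vF (-(2 * tanh x * vF x)) x :=
  (((hasDerivAt_tanh' x).pow 2).const_sub 1).congr_deriv (by simp [vF])

@[fun_prop]
theorem continuous_vF : Continuous vF :=
  continuous_iff_continuousAt.2 fun x => (hasDerivAt_vF x).continuousAt

theorem sq_mul_vF_le (x : ℝ) : x ^ 2 * vF x ≤ 1 := by
  have hc := one_le_cosh x
  have hμ : |x| ≤ cosh x := by
    rcases eq_or_ne |x| 0 with h | h
    · rw [h]; linarith
    · rw [← cosh_abs]
      exact ((self_le_sinh_iff.2 (abs_nonneg x)).trans_lt (sinh_lt_cosh _)).le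
  have e : vF x = 1 / cosh x ^ 2 := by
    rw [vF, tanh_eq_sinh_div_cosh]
    field_simp
    linear_combination cosh_sq_sub_sinh_sq x
  rw [e, ← sq_abs x, ← div_eq_mul_one_div, div_le_one (by positivity)]
  exact pow_le_pow_left₀ (abs_nonneg x) hμ 2

theorem abs_vF_w_le {G g : ℝ} (hg : 0 < g) (hG : g ≤ G) (x : ℝ) :
    vF x * wF G x ^ 2 ≤ 20 + 2 / g ^ 2 ∧ |vF x * wF G x| ≤ 20 + 2 / g ^ 2 := by
  have hG0 : 0 < G := hg.trans_le hG
  obtain ⟨v0, v1⟩ := vF_mem x
  have e : wF G x = (2 * tanh x - 1) + x / G := by rw [wF]; field_simp; ring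
  have h2 : wF G x ^ 2 ≤ 2 * (2 * tanh x - 1) ^ 2 + 2 * (x / G) ^ 2 := by
    rw [e]; linarith [sq_nonneg ((2 * tanh x - 1) - x / G)]
  have h3 : (2 * tanh x - 1) ^ 2 ≤ 9 := by
    obtain ⟨a, b⟩ := abs_le.1 (abs_tanh_le x); nlinarith
  have h4 : vF x * (x / G) ^ 2 ≤ 1 / g ^ 2 := by
    rw [div_pow, mul_div_assoc', mul_comm]
    refine (div_le_div_of_nonneg_right (sq_mul_vF_le x) (sq_nonneg G)).trans ?_
    exact one_div_le_one_div_of_le (by positivity) (pow_le_pow_left₀ hg.le hG 2)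
  have h5 : vF x * wF G x ^ 2 ≤ 18 + 2 / g ^ 2 := by
    have := mul_le_mul_of_nonneg_left h2 v0
    have := mul_le_mul_of_nonneg_left h3 v0
    have e2 : 2 / g ^ 2 = 2 * (1 / g ^ 2) := by ring
    linarith
  refine ⟨by linarith, ?_⟩
  rw [abs_mul, abs_of_nonneg v0]
  nlinarith [mul_nonneg v0 (sq_nonneg (|wF G x| - 1)), sq_abs (wF G x),
    mul_nonneg v0 (abs_nonneg (wF G x))]

theorem hasDerivAt_wF (G x : ℝ) : HasDerivAt (wF G) (2 * vF x + 1 / G) x :=
  (((hasDerivAt_tanh' x).const_mul 2).add (((hasDerivAt_id' x).sub_const G).div_const G)).congr_deriv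
    (by simp [vF])

theorem lip_of_deriv {F F' : ℝ → ℝ} {L : ℝ} (h : ∀ x, HasDerivAt F (F' x) x) (hb : ∀ x, |F' x| ≤ L)
    (x y : ℝ) : |F x - F y| ≤ L * |x - y| :=
  Convex.norm_image_sub_le_of_norm_hasDerivWithin_le (s := Set.univ)
    (fun z _ => (h z).hasDerivWithinAt) (fun z _ => by rw [Real.norm_eq_abs]; exact hb z) convex_univ
    (Set.mem_univ y) (Set.mem_univ x)

theorem testF_lip {G g C : ℝ} (hg : 0 < g) (hG : g ≤ G) (hC : G ≤ C) (k : Fin 5) (x y : ℝ) :
    |testF G k x - testF G k y| ≤ lipC g C * |x - y| := by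
  have hG0 : 0 < G := hg.trans_le hG
  have hi : 1 / G ≤ 1 / g := one_div_le_one_div_of_le hg hG
  have hi0 : 0 ≤ 1 / G := by positivity
  have hD : 1 ≤ 20 + 2 / g ^ 2 := by have : 0 ≤ 2 / g ^ 2 := by positivity
                                     linarith
  have hB : 3 + C ≤ lipC g C := by
    rw [lipC]; exact le_add_of_nonneg_right (by positivity)
  have hE : 4 * (2 + 1 / g) * (20 + 2 / g ^ 2) ≤ lipC g C := by rw [lipC]; linarith
  have hv := fun z => vF_mem z
  have hw := fun z => abs_vF_w_le hg hG z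
  have ht := fun z => abs_tanh_le z
  have hsmall : ∀ z, |2 * tanh z * vF z| ≤ 2 := fun z => by
    rw [abs_mul, abs_mul, abs_two, abs_of_nonneg (hv z).1]
    nlinarith [ht z, abs_nonneg (tanh z), (hv z).1, (hv z).2]
  fin_cases k
  · refine lip_of_deriv (F' := fun z => 2 * tanh z * vF z)
      (fun z => ((hasDerivAt_tanh' z).pow 2).congr_deriv (by simp [vF])) (fun z => ?_) x y
    linarith [hsmall z]
  · refine lip_of_deriv (F' := vF) (fun z => hasDerivAt_tanh' z) (fun z => ?_) x y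
    rw [abs_of_nonneg (hv z).1]; linarith [(hv z).2]
  · refine lip_of_deriv (F' := fun z => tanh z + (z - G) * vF z)
      (fun z => (((hasDerivAt_id' z).sub_const G).mul (hasDerivAt_tanh' z)).congr_deriv
        (by simp [vF])) (fun z => ?_) x y
    refine ((abs_add_le _ _).trans (add_le_add (ht z) ?_)).trans (show 1 + (1 + C) ≤ lipC g C by linarith)
    rw [sub_mul]
    refine (abs_sub _ _).trans (add_le_add ?_ ?_)
    · rw [abs_mul, abs_of_nonneg (hv z).1]; exact abs_mul_sech_le z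
    · rw [abs_mul, abs_of_pos hG0, abs_of_nonneg (hv z).1]
      exact (mul_le_of_le_one_right hG0.le (hv z).2).trans hC
  · refine lip_of_deriv (F' := fun z => -(2 * tanh z * vF z) * wF G z + vF z * (2 * vF z + 1 / G))
      (fun z => (hasDerivAt_vF z).mul (hasDerivAt_wF G z)) (fun z => ?_) x y
    refine le_trans ?_ hE
    refine (abs_add_le _ _).trans ?_
    rw [show -(2 * tanh z * vF z) * wF G z = -(2 * tanh z) * (vF z * wF G z) by ring,
      abs_mul, abs_neg, abs_mul, abs_two, abs_mul (vF z) (wF G z), abs_mul (vF z) (2 * vF z + 1 / G),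
      abs_of_nonneg (hv z).1,
      abs_of_nonneg (add_nonneg (mul_nonneg zero_le_two (hv z).1) hi0)]
    have w2 : vF z * |wF G z| ≤ 20 + 2 / g ^ 2 := by
      have := (hw z).2; rwa [abs_mul, abs_of_nonneg (hv z).1] at this
    have a1 : 2 * |tanh z| * (vF z * |wF G z|) ≤ 2 * (20 + 2 / g ^ 2) :=
      mul_le_mul (by linarith [ht z]) w2 (mul_nonneg (hv z).1 (abs_nonneg _)) zero_le_two
    have a2 : vF z * (2 * vF z + 1 / G) ≤ 2 + 1 / g :=
      (mul_le_of_le_one_left (add_nonneg (mul_nonneg zero_le_two (hv z).1) hi0) (hv z).2).trans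
        (by linarith [(hv z).2])
    have hg1 : 0 ≤ 1 / g := by positivity
    nlinarith [mul_le_mul_of_nonneg_left hD (add_nonneg zero_le_two hg1)]
  · refine lip_of_deriv (F' := fun z => -(2 * tanh z * vF z) * wF G z ^ 2
        + vF z * (2 * wF G z * (2 * vF z + 1 / G)))
      (fun z => ((hasDerivAt_vF z).mul ((hasDerivAt_wF G z).pow 2)).congr_deriv (by simp))
      (fun z => ?_) x y
    refine le_trans ?_ hE
    refine (abs_add_le _ _).trans ?_
    rw [show -(2 * tanh z * vF z) * wF G z ^ 2 = -(2 * tanh z) * (vF z * wF G z ^ 2) by ring,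
      show vF z * (2 * wF G z * (2 * vF z + 1 / G)) = 2 * (2 * vF z + 1 / G) * (vF z * wF G z) by ring,
      abs_mul, abs_neg, abs_mul, abs_two, abs_of_nonneg (mul_nonneg (hv z).1 (sq_nonneg _)),
      abs_mul (2 * (2 * vF z + 1 / G)),
      abs_of_nonneg (mul_nonneg zero_le_two (add_nonneg (mul_nonneg zero_le_two (hv z).1) hi0))]
    nlinarith [mul_le_mul_of_nonneg_right (ht z) (mul_nonneg (hv z).1 (sq_nonneg (wF G z))), (hw z).1,
      mul_le_mul (show 2 * (2 * vF z + 1 / G) ≤ 2 * (2 + 1 / g) by linarith [(hv z).2]) (hw z).2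
        (abs_nonneg _) (by positivity)]

/-- Gaussian integration by parts under `N (G, G)`. -/
theorem nE_ibp {F F' : ℝ → ℝ} {B B' G : ℝ} (hG : 0 ≤ G) (hF : ∀ x, HasDerivAt F (F' x) x)
    (hc : Continuous F') (hb : ∀ x, |F x| ≤ B) (hb' : ∀ x, |F' x| ≤ B') :
    nE G G (fun x => (x - G) * F x) = G * nE G G F' := by
  have cF : Continuous F := continuous_iff_continuousAt.2 fun u => (hF u).continuousAt
  set s := √G with hs
  have hss : s * s = G := mul_self_sqrt hG
  have hu := nE_int cF hb G G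
  have hu' : Integrable (fun g => F' (G + s * g) * s) (gaussianReal 0 1) :=
    (nE_int hc hb' G G).mul_const _
  have hg : Integrable (fun g : ℝ => |g|) (gaussianReal 0 1) := by
    simpa using (integrable_pow_gauss 1).norm
  have hgu : Integrable (fun g => g * F (G + s * g)) (gaussianReal 0 1) := by
    refine (hg.mul_const B).mono' (by fun_prop) (ae_of_all _ fun g => ?_)
    rw [norm_mul, Real.norm_eq_abs, Real.norm_eq_abs]
    exact mul_le_mul_of_nonneg_left (hb _) (abs_nonneg _)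
  have h := P166.ibp_real (u := fun g => F (G + s * g)) (u' := fun g => F' (G + s * g) * s)
    (fun g => (hF _).comp g (((hasDerivAt_id' g).const_mul s).const_add G |>.congr_deriv (mul_one s)))
    hu hu' hgu
  rw [integral_mul_const] at h
  simp only [nE, ← hs, add_sub_cancel_left, mul_assoc, integral_const_mul, h]
  linear_combination (∫ a, F' (G + s * a) ∂gaussianReal 0 1) * hss

theorem mean_tanh {G : ℝ} (hG : 0 ≤ G) : nE G G tanh = psi G := by
  have h := nE_odd (k := tanh) tanh_neg hG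
  rw [psi, ← sub_eq_zero, ← h]
  have i1 := nE_int (B := 1) continuous_tanh' abs_tanh_le G G
  have i2 := nE_int (F := fun x => tanh x ^ 2) (B := 1) (continuous_tanh'.pow 2) (fun x => by
    rw [abs_of_nonneg (sq_nonneg _)]; exact tanh_sq_le x) G G
  simp only [nE]
  rw [← integral_sub i1 i2]
  congr 1; funext g; ring

theorem mean_energy {G : ℝ} (hG : 0 ≤ G) :
    nE G G (fun x => (x - G) * tanh x) = G * (1 - psi G) := by
  rw [nE_ibp (F := tanh) (F' := vF) (B := 1) (B' := 1) hG (fun x => hasDerivAt_tanh' x) (by fun_prop) abs_tanh_le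
    (fun x => by rw [abs_of_nonneg (vF_mem x).1]; exact (vF_mem x).2), one_sub_psi]
  rfl

theorem mean_special {G : ℝ} (hG : 0 < G) : nE G G (fun x => vF x * wF G x) = 0 := by
  have ct : Continuous tanh := continuous_tanh'
  have bv : ∀ x, |vF x| ≤ 1 := fun x => by rw [abs_of_nonneg (vF_mem x).1]; exact (vF_mem x).2
  have bd : ∀ x, |-(2 * tanh x * vF x)| ≤ 2 := fun x => by
    rw [abs_neg, abs_mul, abs_mul, abs_two]
    nlinarith [abs_tanh_le x, bv x, abs_nonneg (tanh x), abs_nonneg (vF x)]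
  have h := nE_ibp hG.le hasDerivAt_vF (by fun_prop) bv bd
  have bb : ∀ x, |(x - G) * vF x| ≤ 1 + G := fun x => by
    rw [sub_mul]; refine (abs_sub _ _).trans (add_le_add ?_ ?_)
    · rw [abs_mul, abs_of_nonneg (vF_mem x).1]; exact abs_mul_sech_le x
    · rw [abs_mul, abs_of_pos hG]; exact mul_le_of_le_one_right hG.le (bv x)
  rw [show (fun x => vF x * wF G x) = fun x => (1 / G) * ((x - G) * vF x) + (-1) * (-(2 * tanh x * vF x))
    from funext fun x => by rw [wF]; ring,
    nE_lin (by fun_prop) (by fun_prop) bb bd, h]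
  field_simp
  ring

theorem mean_special_sq {G : ℝ} (hG : 0 < G) :
    nE G G (fun x => vF x * wF G x ^ 2) = 2 * nE G G (fun x => vF x ^ 2) + (1 - psi G) / G := by
  have ct : Continuous tanh := continuous_tanh'
  have hv := vF_mem
  have bv : ∀ x, |vF x| ≤ 1 := fun x => by rw [abs_of_nonneg (hv x).1]; exact (hv x).2
  have bvm : ∀ x, |vF x * tanh x| ≤ 1 := fun x => by
    rw [abs_mul]; exact mul_le_one₀ (bv x) (abs_nonneg _) (abs_tanh_le x)
  have bx : ∀ x, |(x - G) * vF x| ≤ 1 + G := fun x => by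
    rw [sub_mul]; refine (abs_sub _ _).trans (add_le_add ?_ ?_)
    · rw [abs_mul, abs_of_nonneg (hv x).1]; exact abs_mul_sech_le x
    · rw [abs_mul, abs_of_pos hG]; exact mul_le_of_le_one_right hG.le (bv x)
  have bv2 : ∀ x, |vF x ^ 2| ≤ 1 := fun x => by
    rw [abs_of_nonneg (sq_nonneg _)]; nlinarith [hv x]
  have bm2 : ∀ x, |vF x * tanh x ^ 2| ≤ 1 := fun x => by
    rw [abs_of_nonneg (mul_nonneg (hv x).1 (sq_nonneg _))]
    nlinarith [hv x, tanh_sq_le x, sq_nonneg (tanh x)]
  have bxm : ∀ x, |(x - G) * (vF x * tanh x)| ≤ 1 + G := fun x => by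
    rw [← mul_assoc, abs_mul]
    exact (mul_le_of_le_one_right (abs_nonneg _) (abs_tanh_le x)).trans (bx x)
  have bd1 : ∀ x, |-(2 * tanh x * vF x) * tanh x + vF x * vF x| ≤ 3 := fun x => by
    rw [abs_le]; constructor <;>
      nlinarith [hv x, tanh_sq_le x, sq_nonneg (tanh x), mul_nonneg (hv x).1 (sq_nonneg (tanh x)),
        mul_le_mul_of_nonneg_left (tanh_sq_le x) (hv x).1]
  have h1 := nE_ibp (F := fun x => vF x * tanh x)
    (F' := fun x => -(2 * tanh x * vF x) * tanh x + vF x * vF x) hG.le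
    (fun x => (hasDerivAt_vF x).mul (hasDerivAt_tanh' x)) (by fun_prop) bvm bd1
  have e1 : nE G G (fun x => -(2 * tanh x * vF x) * tanh x + vF x * vF x)
      = -2 * nE G G (fun x => vF x * tanh x ^ 2) + nE G G (fun x => vF x ^ 2) := by
    rw [show (fun x => -(2 * tanh x * vF x) * tanh x + vF x * vF x)
      = fun x => -2 * (vF x * tanh x ^ 2) + 1 * vF x ^ 2 from funext fun x => by ring,
      nE_lin (by fun_prop) (by fun_prop) bm2 bv2, one_mul]
  have bp : ∀ x, |vF x + (x - G) * -(2 * tanh x * vF x)| ≤ 1 + 2 * (1 + G) := fun x => by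
    refine (abs_add_le _ _).trans (add_le_add (bv x) ?_)
    rw [show (x - G) * -(2 * tanh x * vF x) = -2 * ((x - G) * (vF x * tanh x)) by ring, abs_mul]
    rw [abs_neg, abs_two]
    exact mul_le_mul_of_nonneg_left (bxm x) zero_le_two
  have h2 := nE_ibp (F := fun x => (x - G) * vF x)
    (F' := fun x => vF x + (x - G) * -(2 * tanh x * vF x)) hG.le
    (fun x => (((hasDerivAt_id' x).sub_const G).mul (hasDerivAt_vF x)).congr_deriv (by simp [one_mul]))
    (by fun_prop) bx bp
  have e2 : nE G G (fun x => vF x + (x - G) * -(2 * tanh x * vF x))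
      = nE G G vF + -2 * nE G G (fun x => (x - G) * (vF x * tanh x)) := by
    rw [show (fun x => vF x + (x - G) * -(2 * tanh x * vF x))
      = fun x => 1 * vF x + -2 * ((x - G) * (vF x * tanh x)) from funext fun x => by ring,
      nE_lin (by fun_prop) (by fun_prop) bv bxm, one_mul]
  have bxx : ∀ x, |(x - G) * ((x - G) * vF x)| ≤ 2 * (1 + G ^ 2) := fun x => by
    rw [show (x - G) * ((x - G) * vF x) = (x - G) ^ 2 * vF x by ring,
      abs_of_nonneg (mul_nonneg (sq_nonneg _) (hv x).1)]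
    linarith [sq_mul_vF_le x, mul_nonneg (sq_nonneg (x + G)) (hv x).1,
      mul_le_mul_of_nonneg_left (hv x).2 (sq_nonneg G)]
  have btw : ∀ x, |4 * (vF x * tanh x ^ 2) + 4 / G * ((x - G) * (vF x * tanh x))|
      ≤ 4 + 4 / G * (1 + G) := fun x => by
    refine (abs_add_le _ _).trans (add_le_add ?_ ?_)
    · rw [abs_mul, abs_of_pos (by norm_num : (0 : ℝ) < 4)]; linarith [bm2 x]
    · rw [abs_mul, abs_of_pos (by positivity : (0 : ℝ) < 4 / G)]
      exact mul_le_mul_of_nonneg_left (bxm x) (by positivity)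
  rw [show (fun x => vF x * wF G x ^ 2) = fun x =>
      1 * (4 * (vF x * tanh x ^ 2) + 4 / G * ((x - G) * (vF x * tanh x)))
      + 1 / G ^ 2 * ((x - G) * ((x - G) * vF x)) from funext fun x => by rw [wF]; ring,
    nE_lin (by fun_prop) (by fun_prop) btw bxx,
    nE_lin (by fun_prop) (by fun_prop) bm2 bxm, h2, e2, h1, e1, show (1 - psi G) = nE G G vF from one_sub_psi G]
  field_simp
  ring

theorem ampQ_mem (t u : ℝ) (j : ℕ) : 0 ≤ ampQ t u j ∧ ampQ t u j ≤ 1 := by
  cases j with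
  | zero => simp [ampQ]
  | succ j => exact ⟨(psi_mem _).1, (psi_mem _).2.le⟩

theorem ampQ_succ (t u : ℝ) (j : ℕ) : ampQ t u (j + 1) = psi (u + t * ampQ t u j) := rfl

theorem ampQ_step {t u : ℝ} (ht : 0 ≤ t) (hu : 0 ≤ u) (j : ℕ) :
    |ampQ t u (j + 1) - ampQ t u j| ≤ t ^ j := by
  induction j with
  | zero =>
    rw [ampQ_succ, show ampQ t u 0 = 0 from rfl, sub_zero, pow_zero,
      abs_of_nonneg (psi_mem _).1]
    exact (psi_mem _).2.le
  | succ j ih =>
    rw [ampQ_succ t u (j + 1), pow_succ, mul_comm (t ^ j)]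
    have hp : ∀ i, 0 ≤ u + t * ampQ t u i := fun i =>
      add_nonneg hu (mul_nonneg ht (ampQ_mem t u i).1)
    have h := psi_lip (hp (j + 1)) (hp j)
    rw [← ampQ_succ t u j, add_sub_add_left_eq_sub, ← mul_sub, abs_mul, abs_of_nonneg ht] at h
    exact h.trans (mul_le_mul_of_nonneg_left ih ht)

end Vale.Agent.P150.Fast.AmpRoot
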