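import Mathlib
import Vale.Agent.P150.Fast.Amp.Root

/-!
`AmpRootStmt` from `StateEvoStmt`: the iterate is an approximate root with replica-symmetric
statistics, as the five statistics are Lipschitz tests with exact Gaussian values. Used for P150
(module M6, part B).
-/

open MeasureTheory Real Finset Filter

namespace Vale.Agent.P150.Fast

open Entropy AmpRoot

theorem ampRootThm (hSE : StateEvoStmt) : AmpRootStmt := by
  intro β hβ0 hβ1 δ hδ U ε hε
  set t := β ^ 2 with ht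
  have ht0 : 0 < t := pow_pos hβ0 2
  have ht1 : t < 1 := by rw [ht]; exact pow_lt_one₀ hβ0.le hβ1 two_ne_zero
  set g := t * δ
  have hg : 0 < g := mul_pos ht0 hδ
  set C := max U 0 + 1
  have hC : 1 ≤ C := le_add_of_nonneg_left (le_max_right _ _)
  obtain ⟨J₀, hJ₀⟩ := hSE β hβ0.le hβ1 U (ε / 2) (lipC g C) (half_pos hε)
  have hκ : 0 < ε / (2 * (1 + C + 1 / g)) := by positivity
  obtain ⟨J₁, hJ₁⟩ := exists_pow_lt_of_lt_one hκ ht1
  refine ⟨max J₀ J₁, fun J hJ => ?_⟩
  obtain ⟨γ, hγ, hev⟩ := hJ₀ J ((le_max_left _ _).trans hJ)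
  refine ⟨γ / 2, half_pos hγ, ?_⟩
  filter_upwards [hev, eventually_ge_atTop 1,
    (tendsto_natCast_atTop_atTop (R := ℝ)).eventually_ge_atTop (12 / γ)] with n hn hn1 hn6
  intro u hu0 huU hqδ
  obtain ⟨hres, hF⟩ := hn u hu0 huU
  have hn0 : (0 : ℝ) < n := by exact_mod_cast hn1
  obtain ⟨q, hq⟩ : ∃ q, q = ampQ t u J := ⟨_, rfl⟩
  rw [← hq] at hqδ
  rw [← ht] at hF hres
  simp only [← hq] at hF ⊢
  obtain ⟨G, hG⟩ : ∃ G, G = u + t * q := ⟨_, rfl⟩
  simp only [← hG] at hF
  have hqm := hq ▸ ampQ_mem t u J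
  have hgG : g ≤ G := by
    rw [hG]; exact (mul_le_mul_of_nonneg_left hqδ ht0.le).trans (le_add_of_nonneg_left hu0)
  have hG0 : 0 < G := hg.trans_le hgG
  have hGC : G ≤ C := by
    rw [hG]; exact add_le_add (huU.trans (le_max_left _ _)) (mul_le_one₀ ht1.le hqm.1 hqm.2)
  obtain ⟨q', hq'⟩ : ∃ q', q' = psi G := ⟨_, rfl⟩
  have hdq : |q' - q| ≤ ε / (2 * (1 + C + 1 / g)) := by
    have h := ampQ_step (u := u) ht0.le hu0 J
    rw [ampQ_succ, ← hq, ← hG, ← hq'] at h
    exact h.trans ((pow_le_pow_of_le_one ht0.le ht1.le ((le_max_right _ _).trans hJ)).trans hJ₁.le)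
  have hden : 0 < 1 + C + 1 / g := by positivity
  have hsmall : ∀ c, 0 ≤ c → c ≤ 1 + C + 1 / g → c * |q' - q| ≤ ε / 2 := fun c hc hc' => by
    refine (mul_le_mul hc' hdq (abs_nonneg _) hden.le).trans (le_of_eq ?_)
    field_simp
  set A : Dis n × (Fin n → ℝ) → Fin n → ℝ := fun p =>
    ampA (plantK n β p.1) t u (plantH u p.2) J
  set bad : Fin 5 → Set (Dis n × (Fin n → ℝ)) := fun k =>
    {p | ε / 2 < |(∑ i, testF G k (A p i)) / (n : ℝ) - nE G G (testF G k)|}
  set R : Set (Dis n × (Fin n → ℝ)) := {p | (ε / 2) ^ 2 * n < ∑ i,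
    fieldRes (plantK n β p.1) (plantH u p.2) t (A p) i ^ 2}
  have hb : ∀ k, ((disX n).prod (gp (Fin n))).real (bad k) ≤ exp (-(γ * n)) := fun k =>
    hF (testF G k) fun x y => testF_lip hg hgG hGC k x y
  have hsub : {p : Dis n × (Fin n → ℝ) | ¬ (RsStats t u q ε (A p) ∧
      ∑ i, fieldRes (plantK n β p.1) (plantH u p.2) t (A p) i ^ 2 ≤ ε ^ 2 * n)}
      ⊆ R ∪ ⋃ k ∈ (univ : Finset (Fin 5)), bad k := by
    intro p hp
    by_contra hc
    simp only [Set.mem_union, Set.mem_iUnion, not_or, not_exists] at hc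
    obtain ⟨hcR, hck⟩ := hc
    have hk : ∀ k, |(∑ i, testF G k (A p i)) / (n : ℝ) - nE G G (testF G k)| ≤ ε / 2 := fun k =>
      not_lt.1 (hck k (mem_univ k))
    have h0 : |(∑ i, tanh (A p i) ^ 2) / (n : ℝ) - q'| ≤ ε / 2 := by
      rw [hq']; exact hk 0
    have h1 : |(∑ i, tanh (A p i)) / (n : ℝ) - q'| ≤ ε / 2 := by
      rw [hq', ← mean_tanh hG0.le]; exact hk 1
    have h2 : |(∑ i, (A p i - G) * tanh (A p i)) / (n : ℝ) - G * (1 - q')| ≤ ε / 2 := by
      rw [hq', ← mean_energy hG0.le]; exact hk 2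
    have h3 : |(∑ i, vF (A p i) * wF G (A p i)) / (n : ℝ)| ≤ ε / 2 := by
      have h := hk 3
      simp only [testF] at h
      simpa [mean_special hG0] using h
    have h4 : |(∑ i, vF (A p i) * wF G (A p i) ^ 2) / (n : ℝ)
        - (2 * nE G G (fun x => vF x ^ 2) + (1 - q') / G)| ≤ ε / 2 := by
      rw [hq', ← mean_special_sq hG0]; exact hk 4
    have hv2 : nE G G (fun x => vF x ^ 2) ≤ 1 :=
      (le_abs_self _).trans (Fast.Entropy.abs_nE_le (B := 1) (fun x => by
        rw [abs_of_nonneg (sq_nonneg _)]; nlinarith [vF_mem x]) G G)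
    have d1 := hsmall 1 zero_le_one (le_add_of_le_of_nonneg (le_add_of_nonneg_right (zero_le_one.trans hC))
      (by positivity))
    rw [one_mul] at d1
    have d2 : |G * (1 - q') - G * (1 - q)| ≤ ε / 2 := by
      rw [← mul_sub, abs_mul, abs_of_pos hG0, show 1 - q' - (1 - q) = -(q' - q) by ring, abs_neg]
      exact hsmall G hG0.le (by have : 0 ≤ 1 / g := by positivity
                                linarith)
    have d3 : (1 - q') / G ≤ (1 - q) / G + ε / 2 := by
      have h := hsmall (1 / G) (by positivity) (by linarith [one_div_le_one_div_of_le hg hgG])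
      have e : (1 - q') / G - (1 - q) / G = 1 / G * -(q' - q) := by ring
      have := mul_le_mul_of_nonneg_left (neg_le_abs (q' - q)) (show 0 ≤ 1 / G by positivity)
      linarith
    refine hp ⟨⟨(abs_sub_le _ q' _).trans (by linarith), (abs_sub_le _ q' _).trans (by linarith),
      ?_, ?_, ?_⟩, ?_⟩
    · rw [← hG]; exact (abs_sub_le _ (G * (1 - q')) _).trans (by linarith)
    · rw [← hG]
      show |(∑ i, vF (A p i) * wF G (A p i)) / (n : ℝ)| ≤ ε
      linarith
    · rw [← hG]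
      show (∑ i, vF (A p i) * wF G (A p i) ^ 2) / (n : ℝ) ≤ 2 + (1 - q) / G + ε
      linarith [(abs_le.1 h4).2]
    · refine (not_lt.1 hcR).trans (mul_le_mul_of_nonneg_right ?_ hn0.le)
      nlinarith
  have : IsProbabilityMeasure (disX n) := by unfold disX; infer_instance
  refine (measureReal_mono hsub).trans ((measureReal_union_le _ _).trans ?_)
  refine (add_le_add hres ((measureReal_biUnion_finset_le _ _).trans (sum_le_sum fun k _ => hb k))).trans ?_
  simp only [sum_const, card_univ, Fintype.card_fin, nsmul_eq_mul]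
  have h6 : (6 : ℝ) ≤ exp (γ / 2 * n) := by
    have h : 12 ≤ n * γ := (div_le_iff₀ hγ).1 hn6
    linarith [add_one_le_exp (γ / 2 * n)]
  have e : exp (-(γ / 2 * n)) = exp (γ / 2 * n) * exp (-(γ * n)) := by rw [← exp_add]; ring_nf
  rw [e]
  have := mul_le_mul_of_nonneg_right h6 (exp_pos (-(γ * (n : ℝ)))).le
  push_cast
  linarith

end Vale.Agent.P150.Fast
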