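import Vale.Agent.P150.Fast.Amp.Contract
import Vale.Agent.P150.Fast.Amp.GoodEvent

/-!
State evolution for AMP in the planted model (P150, module M6 part B).
-/

open MeasureTheory Real Finset Filter
open scoped Matrix Matrix.Norms.L2Operator

namespace Vale.Agent.P150.Fast

open Amp
open LL (nrm nrm_nonneg nrm_sq)

variable {n M : ℕ} {τ β u : ℝ}

theorem Amp.gZ_toIdeal (p : Dis n × (Fin n → ℝ)) (D : Fin M × (Pair n ⊕ Fin n) → ℝ) :
    gZ (toIdeal M τ β u (p, D)) = p.2 := by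
  funext i; simp [gZ, toIdeal, rowJoin]

theorem Amp.xZ_toIdeal (p : Dis n × (Fin n → ℝ)) (D : Fin M × (Pair n ⊕ Fin n) → ℝ) :
    xZ (toIdeal M τ β u (p, D)) = rows (inn M (selA M τ β u p.2) p.1 D) := by
  simp only [xZ, toIdeal]
  congr 1

theorem Amp.apply_toIdeal (hτ : 0 < τ) (p : Dis n × (Fin n → ℝ))
    (D : Fin M × (Pair n ⊕ Fin n) → ℝ) (X : ℕ → Fin n → ℝ)
    (hX : X = rows (inn M (selA M τ β u p.2) p.1 D)) (k : ℕ) (hk : k < M) :
    goe n p.1 *ᵥ dirs M τ (wOf (idl M τ β u p.2 X)) k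
      = (dirs M τ (wOf (idl M τ β u p.2 X)) k ⬝ᵥ dirs M τ (wOf (idl M τ β u p.2 X)) k) •
        (X k + ((√2 - 1) * (dirs M τ (wOf (idl M τ β u p.2 X)) k ⬝ᵥ X k))
            • dirs M τ (wOf (idl M τ β u p.2 X)) k
          + ∑ c ∈ range k, ((dirs M τ (wOf (idl M τ β u p.2 X)) k ⬝ᵥ X c)
            - dirs M τ (wOf (idl M τ β u p.2 X)) c ⬝ᵥ X k)
            • dirs M τ (wOf (idl M τ β u p.2 X)) c) := by
  subst hX
  set x := inn M (selA M τ β u p.2) p.1 D with hx
  have he : ∀ c : Fin M, selDir (selA M τ β u p.2) x c = dirs M τ (wOf (idl M τ β u p.2 (rows x))) c.1 :=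
    selDir_selA p.2 x
  have hrow : ∀ c : Fin M, (fun i => x (c, i)) = rows x c.1 := fun c => by funext i; simp [rows]
  have h := inn_apply M (selA M τ β u p.2) (selA_ok hτ p.2) p.1 D (fun c l hcl => by
    rw [← hx, he, he]; exact dirs_orth hτ _ fun e => hcl.ne (Fin.ext e)) ⟨k, hk⟩
  simp only [← hx, he, hrow] at h
  refine h.trans ?_
  congr 2
  refine sum_bij (fun c _ => c.1) (fun c hc => mem_range.2 (Fin.lt_def.1 (mem_Iio.1 hc)))
    (fun a _ b _ e => Fin.ext e) (fun b hb => ?_) fun c _ => rfl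
  exact ⟨⟨b, (mem_range.1 hb).trans hk⟩, mem_Iio.2 (Fin.lt_def.2 (mem_range.1 hb)), rfl⟩

/-- The bad event of the ideal vectors. -/
def Amp.badZ (M : ℕ) (B e β u : ℝ) : Set (Fin (M + 1) × Fin n → ℝ) :=
  {z | ¬ Conc M B e β u z} ∪ ⋃ p ∈ (range M ×ˢ range M).filter (fun p => p.1 ≤ p.2),
    sliceBad M e β u e p.1 p.2

/-- The failure of uniform concentration for one function at one channel. -/
def Amp.badF (M : ℕ) (B e γ : ℝ) (F : ℝ → ℝ) : Set (Fin (M + 1) × Fin n → ℝ) :=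
  {z | ¬ ∀ b ∈ box (M + 1) B, nrm (comb b z) ≤ √n * (√(∑ c, b c ^ 2) + e) ∧
    |avgF F (fun i => γ + comb b z i) - nE γ (∑ c, b c ^ 2) F| ≤ e}

theorem Amp.badZ_prob {B e L : ℝ} (hB : 0 < B) (he : 0 < e) (hL : 2 ≤ L) (β : ℝ) (M : ℕ) :
    ∃ c : ℝ, 0 < c ∧ ∀ᶠ n : ℕ in atTop, ∀ u : ℝ,
      (gp (Fin (M + 1) × Fin n)).real (badZ M B e β u) ≤ exp (-(c * n)) ∧
      ∀ γ : ℝ, ∀ F : ℝ → ℝ, (∀ x y, |F x - F y| ≤ L * |x - y|) →
        (gp (Fin (M + 1) × Fin n)).real (badF M B e γ F) ≤ exp (-(c * n)) := by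
  classical
  obtain ⟨c₀, hc₀, hconc⟩ := uniform_conc (M + 1) B L e hB (by linarith) he
  set c₁ := 2 * e ^ 2 / π ^ 2
  set c := min c₀ c₁ / 2
  set a : ℝ := 3 * (M + 1) + 2 * (M * M)
  refine ⟨c, by positivity, ?_⟩
  filter_upwards [hconc, eventually_le_exp (a := a) (c := c) (by positivity), eventually_ge_atTop 1]
    with n hn ha hn1
  intro u
  have hle : ∀ c', c₀ = c' ∨ c₁ = c' → exp (-(c' * n)) ≤ exp (-(2 * c * n)) := by
    rintro c' (rfl | rfl) <;> refine exp_le_exp.2 (neg_le_neg (mul_le_mul_of_nonneg_right ?_ (Nat.cast_nonneg n)))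
    · simp only [c]; linarith [min_le_left c₀ c₁]
    · simp only [c]; linarith [min_le_right c₀ c₁]
  have hF : ∀ γ : ℝ, ∀ F : ℝ → ℝ, (∀ x y, |F x - F y| ≤ L * |x - y|) →
      (gp (Fin (M + 1) × Fin n)).real (badF M B e γ F) ≤ exp (-(2 * c * n)) :=
    fun γ F hF => (hn γ F hF).trans (hle _ (Or.inl rfl))
  refine ⟨?_, fun γ F h => (hF γ F h).trans (exp_le_exp.2 (neg_le_neg (by
    have : 0 ≤ c * n := by positivity
    linarith)))⟩
  have l1 : ∀ x y : ℝ, |lc x - lc y| ≤ L * |x - y| := fun x y =>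
    (lc_lip x y).trans (mul_le_mul_of_nonneg_right (by linarith) (abs_nonneg _))
  have l2 : ∀ x y : ℝ, |tanh x - tanh y| ≤ L * |x - y| := fun x y =>
    (tanh_lip x y).trans (mul_le_mul_of_nonneg_right (by linarith) (abs_nonneg _))
  have l3 : ∀ x y : ℝ, |tanh x ^ 2 - tanh y ^ 2| ≤ L * |x - y| := fun x y =>
    (tanh_sq_lip x y).trans (mul_le_mul_of_nonneg_right hL (abs_nonneg _))
  have h1 : (gp (Fin (M + 1) × Fin n)).real {z | ¬ Conc M B e β u z}
      ≤ (M + 1) * (3 * exp (-(2 * c * n))) := by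
    have hU := union_net (gp (Fin (M + 1) × Fin n)) (range (M + 1))
      (E := fun j => badF M B e (gam β u j) lc ∪
        (badF M B e (gam β u j) tanh ∪ badF M B e (gam β u j) fun a => tanh a ^ 2))
      (b := 3 * exp (-(2 * c * n))) fun j _ => (measureReal_union_le _ _).trans
        ((add_le_add (hF _ _ l1) ((measureReal_union_le _ _).trans
          (add_le_add (hF _ _ l2) (hF _ _ l3)))).trans_eq (by ring))
    rw [card_range] at hU
    push_cast at hU
    refine (measureReal_mono (fun z hz => ?_) (measure_ne_top _ _)).trans hU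
    by_contra h
    simp only [Set.mem_iUnion, exists_prop, not_exists, not_and, Set.mem_union, not_or, badF,
      Set.mem_ofPred_eq, not_not, mem_range] at h
    exact hz fun b hb => ⟨((h 0 M.succ_pos).1 b hb).1, fun j hj =>
      have hj' : j < M + 1 := Nat.lt_succ_of_le hj
      ⟨((h j hj').1 b hb).2, ((h j hj').2.1 b hb).2, ((h j hj').2.2 b hb).2⟩⟩
  have h2 : (gp (Fin (M + 1) × Fin n)).real (⋃ p ∈ (range M ×ˢ range M).filter (fun p => p.1 ≤ p.2),
      sliceBad M e β u e p.1 p.2) ≤ (M * M : ℝ) * (2 * exp (-(2 * c * n))) := by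
    refine (union_net _ _ (b := 2 * exp (-(2 * c * n))) fun p hp => ?_).trans
      (mul_le_mul_of_nonneg_right ?_ (by positivity))
    · obtain ⟨hp1, hp2⟩ := mem_filter.1 hp
      refine (sliceBad_prob he hn1 he hp2 (mem_range.1 (mem_product.1 hp1).2)).trans
        (mul_le_mul_of_nonneg_left ?_ zero_le_two)
      rw [mul_div_right_comm]
      exact hle c₁ (Or.inr rfl)
    · refine (Nat.cast_le.2 (card_filter_le _ _)).trans_eq ?_
      simp
  refine ((measureReal_union_le _ _).trans (add_le_add h1 h2)).trans (le_trans (le_of_eq ?_) ha)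
  simp only [a]; ring

theorem Amp.good_amp {K : ℕ} {B e L : ℝ} {F : ℝ → ℝ} (hF : ∀ x y, |F x - F y| ≤ L * |x - y|)
    (hn : 0 < n) (hβ : 0 ≤ β) (hβ1 : β < 1) (hu : 0 ≤ u) (hB : √u ≤ B) (hB3 : 3 ≤ B) (he : 0 < e)
    (he1 : goodEps e (K + 2) ≤ 1) (p : Dis n × (Fin n → ℝ)) (hnorm : ‖kmat n β p.1‖ ≤ 2 * β + 1)
    (D : Fin (K + 2) × (Pair n ⊕ Fin n) → ℝ)
    (hz : toIdeal (K + 2) e β u (p, D) ∉ badZ (K + 2) B e β u) :
    nrm (fieldRes (plantK n β p.1) (plantH u p.2) (β ^ 2)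
        (ampA (plantK n β p.1) (β ^ 2) u (plantH u p.2) (K + 1)))
      ≤ √n * ((6 * 7 ^ (K + 2) * ((K + 3) * (2 * (K + 2) + 12)) + 4 / (1 - β) + 1) * goodEps e (K + 2)
        + 2 * ((K + 4) * β ^ K)) ∧
    (toIdeal (K + 2) e β u (p, D) ∉ badF (K + 2) B e (gam β u (K + 1)) F →
      |avgF F (ampA (plantK n β p.1) (β ^ 2) u (plantH u p.2) (K + 1))
        - nE (gam β u (K + 1)) (gam β u (K + 1)) F|
        ≤ L * (7 ^ (K + 1) * ((((K + 2 : ℕ) : ℝ) + 1) * (2 * ((K + 2 : ℕ) : ℝ) + 12))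
            * goodEps e (K + 2)) + (e + L * √(dlt e (K + 2)))) := by
  set z := toIdeal (K + 2) e β u (p, D)
  simp only [badZ, Set.mem_union, Set.mem_ofPred_eq, Set.mem_iUnion, exists_prop, mem_filter,
    mem_product, mem_range, not_or, not_not, not_exists, not_and, and_imp] at hz
  obtain ⟨hC, hS⟩ := hz
  have hse : e ≤ goodEps e (K + 2) := by
    unfold goodEps; linarith [sqrt_nonneg e, sqrt_nonneg (dlt e (K + 2))]
  have hgZ : gZ z = p.2 := gZ_toIdeal p D
  have hxZ : xZ z = rows (inn (K + 2) (selA (K + 2) e β u p.2) p.1 D) := xZ_toIdeal p D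
  have G := good_of (d := p.1) hC he (hse.trans he1) hu hβ hβ1.le hB hB3 hn hnorm
    (fun k hk => by rw [hgZ]; exact apply_toIdeal he p D _ hxZ k hk)
    (fun c k hck hk => hS (c, k) (by omega) hk hck)
  rw [hgZ] at G
  refine ⟨residual_le G hn hβ hβ1 hu he hse he1, fun hzF => ?_⟩
  simp only [badF, Set.mem_ofPred_eq, not_not] at hzF
  have h1 := avg_amp_close hF G hn hβ hβ1.le he hse he1 (J := K + 1) (by omega)
  have h2 := stat_of hF hC (J := K + 1) (by omega) he hu hβ hβ1.le hB (by linarith)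
    (fun b hb => (hzF b hb).2)
  rw [hgZ] at h2
  exact (abs_sub_le _ (avgF F (idl (K + 2) e β u p.2 (xZ z) (K + 1))) _).trans (add_le_add h1 h2)

/-- Bad events of the disorder are covered by the norm event and the bad ideal vectors. -/
theorem Amp.cover {e : ℝ} (he : 0 < e) (M : ℕ) (β u : ℝ) (bad : Set (Dis n × (Fin n → ℝ)))
    (S : Set (Fin (M + 1) × Fin n → ℝ))
    (h : ∀ p ∈ bad, ‖kmat n β p.1‖ ≤ 2 * β + 1 → ∀ D, toIdeal M e β u (p, D) ∈ S) {a b : ℝ}
    (hnorm : (disX n).real {d | ¬ ∀ v, |Ent.qform (kmat n β d) v| ≤ (2 * β + 1) * ∑ i, v i ^ 2} ≤ a)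
    (hS : (gp (Fin (M + 1) × Fin n)).real S ≤ b) (hβ : 0 ≤ β) :
    ((disX n).prod (gp (Fin n))).real bad ≤ a + b := by
  have : IsProbabilityMeasure (disX n) := by unfold disX gp; infer_instance
  set N := {d : Dis n | ¬ ∀ v, |Ent.qform (kmat n β d) v| ≤ (2 * β + 1) * ∑ i, v i ^ 2}
  refine (measureReal_mono (s₂ := N ×ˢ Set.univ ∪
    {p | p ∈ bad ∧ ∀ D, toIdeal M e β u (p, D) ∈ S}) (fun p hp => ?_) (measure_ne_top _ _)).trans
    ((measureReal_union_le _ _).trans (add_le_add ?_ ((prob_le_ideal he β u bad S).trans hS)))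
  · by_cases hN : p.1 ∈ N
    · exact Or.inl ⟨hN, trivial⟩
    · exact Or.inr ⟨hp, h p hp (LL.norm_kmat_le (by linarith) (not_not.1 hN))⟩
  · rw [measureReal_prod_prod, probReal_univ, mul_one]
    exact hnorm

/-- **State evolution.** -/
theorem stateEvo : StateEvoStmt := by
  intro β hβ hβ1 U ε L hε
  set L' := max L 2
  set B := max 3 (√U)
  set η := min ε 1 / 4
  have hη : 0 < η := by positivity
  have hη1 : η ≤ ε / 4 ∧ η ≤ 1 / 4 := by
    simp only [η]; constructor <;> linarith [min_le_left ε 1, min_le_right ε 1]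
  have hlim : Tendsto (fun k : ℕ => 2 * (((k : ℝ) + 4) * β ^ k)) atTop (nhds 0) := by
    have h1 := tendsto_self_mul_const_pow_of_lt_one hβ hβ1
    have h2 := tendsto_pow_atTop_nhds_zero_of_lt_one hβ hβ1
    have := (h1.add (h2.const_mul 4)).const_mul 2
    simp only [mul_zero, add_zero] at this
    exact this.congr fun k => by ring
  obtain ⟨N, hN⟩ := eventually_atTop.1 (hlim.eventually (ge_mem_nhds hη))
  refine ⟨N + 1, fun J hJ => ?_⟩
  obtain ⟨K, rfl⟩ : ∃ K, J = K + 1 := ⟨J - 1, by omega⟩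
  set C₁ : ℝ := 6 * 7 ^ (K + 2) * ((K + 3) * (2 * (K + 2) + 12)) + 4 / (1 - β) + 1
  set C₂ : ℝ := L' * (7 ^ (K + 1) * ((((K + 2 : ℕ) : ℝ) + 1) * (2 * ((K + 2 : ℕ) : ℝ) + 12)))
  obtain ⟨e, he, hf⟩ : ∃ e : ℝ, 0 < e ∧
      (|C₁| + |C₂| + 1) * goodEps e (K + 2) + e + L' * √(dlt e (K + 2)) ≤ η := by
    have hc : Continuous fun e => (|C₁| + |C₂| + 1) * goodEps e (K + 2) + e + L' * √(dlt e (K + 2)) := by
      have := continuous_dlt (K + 2)
      unfold goodEps
      fun_prop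
    have h0 := hc.tendsto 0
    simp only [goodEps, dlt_zero, sqrt_zero, mul_zero, add_zero] at h0
    obtain ⟨e, h1, h2⟩ := (((h0.eventually (ge_mem_nhds hη)).filter_mono
      (nhdsWithin_le_nhds (s := Set.Ioi 0))).and self_mem_nhdsWithin).exists
    exact ⟨e, h2, h1⟩
  have hg0 : 0 ≤ goodEps e (K + 2) := by unfold goodEps; positivity
  have hL' : 0 ≤ L' := le_trans zero_le_two (le_max_right _ _)
  have hd0 : 0 ≤ L' * √(dlt e (K + 2)) := mul_nonneg hL' (sqrt_nonneg _)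
  have hg1 : goodEps e (K + 2) ≤ 1 := by
    linarith [mul_le_mul_of_nonneg_right (show 1 ≤ |C₁| + |C₂| + 1 by linarith [abs_nonneg C₁, abs_nonneg C₂]) hg0,
      hη1.2]
  obtain ⟨c₀, hc₀, hb⟩ := badZ_prob (show 0 < B by positivity) he (le_max_right L 2) β (K + 2)
  obtain ⟨c₁, hc₁, hnrm⟩ := normEvent β 1 hβ one_pos
  set c := min c₀ c₁ / 2
  refine ⟨c, by positivity, ?_⟩
  filter_upwards [hb, hnrm, eventually_le_exp (a := 3) (c := c) (by positivity),
    eventually_ge_atTop 1] with n hbn hnn h3 hn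
  intro u hu huU
  have hB : √u ≤ B := le_trans (sqrt_le_sqrt huU) (le_max_right _ _)
  have e0 : exp (-(c₀ * n)) ≤ exp (-(2 * c * n)) :=
    exp_le_exp.2 (neg_le_neg (mul_le_mul_of_nonneg_right
      (by simp only [c]; linarith [min_le_left c₀ c₁]) (Nat.cast_nonneg n)))
  have e1 : exp (-(c₁ * n)) ≤ exp (-(2 * c * n)) :=
    exp_le_exp.2 (neg_le_neg (mul_le_mul_of_nonneg_right
      (by simp only [c]; linarith [min_le_right c₀ c₁]) (Nat.cast_nonneg n)))
  have hpos := exp_pos (-(2 * c * n))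
  have hsn : 0 ≤ √(n : ℝ) := sqrt_nonneg _
  have hK := hN K (by omega)
  refine ⟨?_, fun F hF => ?_⟩
  · refine (cover he (K + 2) β u _ (badZ (K + 2) B e β u) (fun p hp hnorm D => ?_) hnn (hbn u).1 hβ).trans
      (le_trans ?_ h3)
    · by_contra hz
      have h := (good_amp (F := fun _ => (0 : ℝ)) (L := 0) (fun _ _ => by simp) hn hβ hβ1 hu hB
        (le_max_left _ _) he hg1 p hnorm D hz).1
      simp only [Set.mem_ofPred_eq] at hp
      rw [← nrm_sq] at hp
      have h2 : (C₁ * goodEps e (K + 2) + 2 * ((K + 4) * β ^ K)) ≤ ε := by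
        linarith [mul_le_mul_of_nonneg_right (le_abs_self C₁) hg0, mul_nonneg (abs_nonneg C₂) hg0,
          hη1.1]
      have h4 := pow_le_pow_left₀ (nrm_nonneg _) (h.trans (mul_le_mul_of_nonneg_left h2 hsn)) 2
      rw [mul_pow, sq_sqrt (Nat.cast_nonneg n)] at h4
      linarith
    · linarith
  · have hF' : ∀ x y, |F x - F y| ≤ L' * |x - y| := fun x y =>
      (hF x y).trans (mul_le_mul_of_nonneg_right (le_max_left _ _) (abs_nonneg _))
    refine (cover he (K + 2) β u _ (badZ (K + 2) B e β u ∪ badF (K + 2) B e (gam β u (K + 1)) F)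
      (fun p hp hnorm D => ?_) hnn ((measureReal_union_le _ _).trans (add_le_add (hbn u).1
        ((hbn u).2 _ F hF'))) hβ).trans (le_trans ?_ h3)
    · by_contra hz
      rw [Set.mem_union, not_or] at hz
      have h := (good_amp hF' hn hβ hβ1 hu hB (le_max_left _ _) he hg1 p hnorm D hz.1).2 hz.2
      simp only [Set.mem_ofPred_eq] at hp
      have h2 : C₂ * goodEps e (K + 2) + (e + L' * √(dlt e (K + 2))) ≤ ε := by
        linarith [mul_le_mul_of_nonneg_right (le_abs_self C₂) hg0, mul_nonneg (abs_nonneg C₁) hg0,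
          hη1.1]
      have h4 : ε < L' * (7 ^ (K + 1) * ((((K + 2 : ℕ) : ℝ) + 1) * (2 * ((K + 2 : ℕ) : ℝ) + 12))
            * goodEps e (K + 2)) + (e + L' * √(dlt e (K + 2))) := lt_of_lt_of_le hp h
      have h5 : L' * (7 ^ (K + 1) * ((((K + 2 : ℕ) : ℝ) + 1) * (2 * ((K + 2 : ℕ) : ℝ) + 12))
            * goodEps e (K + 2)) = C₂ * goodEps e (K + 2) := by simp only [C₂]; ring
      linarith
    · linarith

end Vale.Agent.P150.Fast
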