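import Vale.Agent.P150.Fast.Dom.Innov

/-!
One innovation step for a matrix of the Gaussian orthogonal ensemble (P150, module M6 part B): along
a fixed unit vector (or the zero vector) the matrix splits exactly into a standard vector and an
independent matrix of the same law that agrees with it off that vector.
-/

open MeasureTheory Real Finset
open scoped Matrix

namespace Vale.Agent.P150.Fast.Amp

open Dom

variable {n : ℕ}

theorem sub_bil (a a' b : Fin n → ℝ) : bil (a - a') b = bil a b - bil a' b := by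
  funext j; rcases j with p | i <;> simp [bil] <;> ring

theorem bil_dot (a b : Fin n → ℝ) (d : Dis n) : bil a b ⬝ᵥ d = a ⬝ᵥ (goe n d *ᵥ b) :=
  (bil_eq d a b).symm

theorem bil_bil (a b c e : Fin n → ℝ) :
    bil a b ⬝ᵥ bil c e = (a ⬝ᵥ c) * (b ⬝ᵥ e) + (a ⬝ᵥ e) * (b ⬝ᵥ c) := bil_inner a b c e

theorem goe_dot_comm (d : Dis n) (a b : Fin n → ℝ) :
    a ⬝ᵥ (goe n d *ᵥ b) = b ⬝ᵥ (goe n d *ᵥ a) := by
  rw [← bil_dot, ← bil_dot]
  congr 1
  funext j; rcases j with p | i <;> simp [bil] <;> ring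

/-- The standard vector along `e`. -/
noncomputable def stpG (e : Fin n → ℝ) (d d' : Dis n) : Fin n → ℝ :=
  goe n d *ᵥ e - ((1 - 1 / √2) * (e ⬝ᵥ (goe n d *ᵥ e))) • e
    + (1 - e ⬝ᵥ e) • fun i => d' (Sum.inr i)

/-- The change of the row along `e`. -/
noncomputable def stpV (e : Fin n → ℝ) (d d' : Dis n) : Fin n → ℝ :=
  goe n d' *ᵥ e - goe n d *ᵥ e

/-- The renewed disorder. -/
noncomputable def stpD (e : Fin n → ℝ) (d d' : Dis n) : Dis n :=
  d + bil (stpV e d d') e - ((e ⬝ᵥ stpV e d d') / 2) • bil e e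

theorem dot_stpG (e a : Fin n → ℝ) (d d' : Dis n) :
    a ⬝ᵥ stpG e d d' = bil (a - ((1 - 1 / √2) * (e ⬝ᵥ a)) • e) e ⬝ᵥ d
      + (1 - e ⬝ᵥ e) * ∑ i, a i * d' (Sum.inr i) := by
  rw [bil_dot, stpG, dotProduct_add, dotProduct_sub, sub_dotProduct, dotProduct_smul,
    dotProduct_smul, smul_dotProduct, dotProduct_comm a e]
  simp only [smul_eq_mul, dotProduct]
  ring

theorem dot_stpD (e : Fin n → ℝ) (z d d' : Dis n) :
    z ⬝ᵥ stpD e d d' = (z - bil (goe n z *ᵥ e - ((e ⬝ᵥ (goe n z *ᵥ e)) / 2) • e) e) ⬝ᵥ d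
      + bil (goe n z *ᵥ e - ((e ⬝ᵥ (goe n z *ᵥ e)) / 2) • e) e ⬝ᵥ d' := by
  set ζ := goe n z *ᵥ e
  have e1 : ∀ w, z ⬝ᵥ bil w e = w ⬝ᵥ ζ := fun w => by rw [dotProduct_comm, bil_dot]
  rw [stpD, dotProduct_sub, dotProduct_add, dotProduct_smul, e1, e1, sub_dotProduct, bil_dot,
    bil_dot, stpV]
  simp only [sub_dotProduct, dotProduct_sub, smul_dotProduct, smul_eq_mul,
    dotProduct_comm ζ (goe n d *ᵥ e), dotProduct_comm ζ (goe n d' *ᵥ e)]
  ring

/-- The coefficients of the step. -/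
noncomputable def stpArr (e : Fin n → ℝ) :
    Fin n ⊕ (Pair n ⊕ Fin n) → (Pair n ⊕ Fin n) ⊕ (Pair n ⊕ Fin n) → ℝ :=
  Sum.elim
    (fun i => Sum.elim (bil ((Pi.single i 1 : Fin n → ℝ) - ((1 - 1 / √2) * e i) • e) e)
      (Sum.elim (fun _ => 0) fun j => if j = i then 1 - e ⬝ᵥ e else 0))
    fun k => Sum.elim
      (Pi.single k 1 - bil (goe n (Pi.single k 1) *ᵥ e
        - ((e ⬝ᵥ (goe n (Pi.single k 1) *ᵥ e)) / 2) • e) e)
      (bil (goe n (Pi.single k 1) *ᵥ e - ((e ⬝ᵥ (goe n (Pi.single k 1) *ᵥ e)) / 2) • e) e)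

theorem arrMap_stp (e : Fin n → ℝ) (d d' : Dis n) :
    arrMap (stpArr e) (Sum.elim d d') = Sum.elim (stpG e d d') (stpD e d d') := by
  classical
  funext k
  rw [arrMap_apply, Fintype.sum_sum_type]
  simp only [Sum.elim_inl, Sum.elim_inr]
  rcases k with i | k
  · have h := dot_stpG e (Pi.single i 1) d d'
    rw [single_dotProduct, one_mul, dotProduct_single, mul_one] at h
    simp only [stpArr, Sum.elim_inl, Sum.elim_inr, Fintype.sum_sum_type, zero_mul, sum_const_zero,
      zero_add, ite_mul, sum_ite_eq', mem_univ, if_true]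
    simp only [Pi.single_apply, ite_mul, one_mul, zero_mul, sum_ite_eq', mem_univ, if_true] at h
    rw [h]
    simp only [dotProduct, Fintype.sum_sum_type]
  · have h := dot_stpD e (Pi.single k 1) d d'
    rw [single_dotProduct, one_mul] at h
    simp only [stpArr, Sum.elim_inr, Sum.elim_inl]
    rw [h]
    rfl

theorem stp_cov {e : Fin n → ℝ} (he : e ⬝ᵥ e = 1 ∨ e = 0) (w : Fin n ⊕ (Pair n ⊕ Fin n) → ℝ) :
    ∑ i, (∑ k, w k * stpArr e k i) ^ 2
      = ∑ j, (∑ k, w k * if j = k then (1 : ℝ) else 0) ^ 2 := by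
  classical
  set a : Fin n → ℝ := fun i => w (Sum.inl i) with ha
  set z : Dis n := fun k => w (Sum.inr k) with hz
  set c : ℝ := 1 - 1 / √2
  set y := goe n z *ᵥ e - ((e ⬝ᵥ (goe n z *ᵥ e)) / 2) • e with hy
  -- the transposed map
  set X := bil (a - (c * (e ⬝ᵥ a)) • e) e + z - bil y e with hX
  set Y : Dis n := bil y e + Sum.elim (fun _ => 0) (fun i => (1 - e ⬝ᵥ e) * a i) with hY
  have key : ∀ d d', a ⬝ᵥ stpG e d d' + z ⬝ᵥ stpD e d d' = X ⬝ᵥ d + Y ⬝ᵥ d' := fun d d' => by
    rw [dot_stpG, dot_stpD, hX, hY, hy]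
    simp only [sub_dotProduct, add_dotProduct, c]
    have : (Sum.elim (fun _ => 0) fun i => (1 - e ⬝ᵥ e) * a i : Dis n) ⬝ᵥ d'
        = (1 - e ⬝ᵥ e) * ∑ i, a i * d' (Sum.inr i) := by
      simp [dotProduct, Fintype.sum_sum_type, mul_sum, mul_assoc]
    rw [this]
    ring
  have hT : ∀ i, ∑ k, w k * stpArr e k i = Sum.elim X Y i := by
    intro i
    set f : (Pair n ⊕ Fin n) ⊕ (Pair n ⊕ Fin n) → ℝ := Pi.single i 1 with hf
    have e0 : ∀ k, arrMap (stpArr e) f k = stpArr e k i := fun k => by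
      simp [arrMap_apply, hf, Pi.single_apply]
    have h := key (fun j => f (Sum.inl j)) fun j => f (Sum.inr j)
    have hf' : Sum.elim (fun j => f (Sum.inl j)) (fun j => f (Sum.inr j)) = f := Sum.elim_comp_inl_inr f
    have hr : X ⬝ᵥ (fun j => f (Sum.inl j)) + Y ⬝ᵥ (fun j => f (Sum.inr j)) = Sum.elim X Y i := by
      have h1 : Sum.elim X Y ⬝ᵥ f = Sum.elim X Y i := by rw [hf, dotProduct_single, mul_one]
      rw [← h1]
      exact (Fintype.sum_sum_type (fun j => Sum.elim X Y j * f j)).symm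
    rw [← hr, ← h]
    simp only [← e0]
    rw [← hf', arrMap_stp, Fintype.sum_sum_type, hf']
    rfl
  have hR : ∀ j, ∑ k, w k * (if j = k then (1 : ℝ) else 0) = w j := fun j => by simp
  simp only [hT, hR]
  have eX : ∀ f : (Pair n ⊕ Fin n) ⊕ (Pair n ⊕ Fin n) → ℝ, ∑ i, f i ^ 2
      = (fun i => f (Sum.inl i)) ⬝ᵥ (fun i => f (Sum.inl i))
        + (fun i => f (Sum.inr i)) ⬝ᵥ (fun i => f (Sum.inr i)) := fun f => by
    rw [Fintype.sum_sum_type]; simp only [dotProduct, pow_two]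
  have eW : ∑ j, w j ^ 2 = a ⬝ᵥ a + z ⬝ᵥ z := by
    rw [Fintype.sum_sum_type]; simp only [dotProduct, pow_two, ha, hz]
  rw [eX, eW]
  simp only [Sum.elim_inl, Sum.elim_inr]
  rcases he with he | he
  · have hY' : Y = bil y e := by
      funext k; rcases k with p | i <;> simp [hY, he]
    have eX' : X = bil (a - (c * (e ⬝ᵥ a)) • e - y) e + z := by rw [hX, sub_bil _ y]; abel
    show X ⬝ᵥ X + Y ⬝ᵥ Y = _
    rw [hY', eX']
    set ζ := goe n z *ᵥ e with hζ
    have hzb : ∀ v, z ⬝ᵥ bil v e = v ⬝ᵥ ζ := fun v => by rw [dotProduct_comm, bil_dot]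
    have hzb' : ∀ v, bil v e ⬝ᵥ z = v ⬝ᵥ ζ := fun v => bil_dot v e z
    simp only [dotProduct_add, add_dotProduct, hzb, hzb', bil_bil, he, mul_one, hy, dotProduct_sub,
      sub_dotProduct, dotProduct_smul, smul_dotProduct, smul_eq_mul, dotProduct_comm ζ e,
      dotProduct_comm a e, dotProduct_comm ζ a]
    have hc : 2 * (1 - c) ^ 2 = 1 := by
      simp only [c, sub_sub_cancel, div_pow, sq_sqrt zero_le_two]; norm_num
    linear_combination (e ⬝ᵥ a) ^ 2 * hc
  · subst he
    have hb : ∀ v : Fin n → ℝ, bil v 0 = 0 := fun v => by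
      funext j; rcases j with p | i <;> simp [bil]
    simp only [hX, hY, hb, zero_add, sub_zero, zero_dotProduct, one_mul]
    rw [add_comm]
    congr 1
    simp [dotProduct, Fintype.sum_sum_type]

/-- **The exact law of one step.** -/
theorem step_law {e : Fin n → ℝ} (he : e ⬝ᵥ e = 1 ∨ e = 0) :
    MeasurePreserving (fun p : Dis n × Dis n => (stpG e p.1 p.2, stpD e p.1 p.2))
      ((disX n).prod (disX n)) ((gp (Fin n)).prod (disX n)) := by
  classical
  have hid : ∀ x : Fin n ⊕ (Pair n ⊕ Fin n) → ℝ,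
      arrMap (fun k j => if j = k then (1 : ℝ) else 0) x = x := fun x => by
    funext k; simp [arrMap_apply]
  have h : MeasurePreserving (arrMap (stpArr e)) (gp ((Pair n ⊕ Fin n) ⊕ (Pair n ⊕ Fin n)))
      (gp (Fin n ⊕ (Pair n ⊕ Fin n))) := by
    refine ⟨(arrMap _).continuous.measurable, ?_⟩
    rw [map_gp_eq (stpArr e) (fun k j => if j = k then (1 : ℝ) else 0) (stp_cov he),
      show ⇑(arrMap fun (k j : Fin n ⊕ (Pair n ⊕ Fin n)) => if j = k then (1 : ℝ) else 0) = id from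
        funext hid, Measure.map_id]
  have h1 := (measurePreserving_sumPiEquivProdPi_symm
    fun _ : (Pair n ⊕ Fin n) ⊕ (Pair n ⊕ Fin n) => ProbabilityTheory.gaussianReal 0 1)
  have h2 := (measurePreserving_sumPiEquivProdPi
    fun _ : Fin n ⊕ (Pair n ⊕ Fin n) => ProbabilityTheory.gaussianReal 0 1)
  have hc := h2.comp (h.comp h1)
  rw [disX, gp, gp]
  convert hc using 1
  funext p
  have hs : (MeasurableEquiv.sumPiEquivProdPi
      fun _ : (Pair n ⊕ Fin n) ⊕ (Pair n ⊕ Fin n) => ℝ).symm p = Sum.elim p.1 p.2 := by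
    funext k; rcases k with k | k <;> rfl
  simp only [Function.comp_apply]
  rw [hs, arrMap_stp]
  rfl

theorem stpG_of_unit {e : Fin n → ℝ} (he : e ⬝ᵥ e = 1) (d d' : Dis n) :
    goe n d *ᵥ e = stpG e d d' + ((√2 - 1) * (e ⬝ᵥ stpG e d d')) • e := by
  have h : e ⬝ᵥ stpG e d d' = 1 / √2 * (e ⬝ᵥ (goe n d *ᵥ e)) := by
    rw [stpG, he]
    simp [dotProduct_sub, dotProduct_smul, he]
    ring
  rw [h, ← mul_assoc, show (√2 - 1) * (1 / √2) = 1 - 1 / √2 by
    field_simp, stpG, he]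
  simp

theorem goe_bil (v e w : Fin n → ℝ) :
    goe n (bil v e) *ᵥ w = (e ⬝ᵥ w) • v + (v ⬝ᵥ w) • e := by
  funext i
  have h := bil_inner (Pi.single i 1) w v e
  simp only [single_dotProduct, one_mul] at h
  have h2 := bil_eq (bil v e) (Pi.single i 1) w
  rw [single_dotProduct, one_mul, h] at h2
  rw [h2]
  simp only [Pi.add_apply, Pi.smul_apply, smul_eq_mul, dotProduct_comm w]
  ring

theorem goe_add (x y : Dis n) : goe n (x + y) = goe n x + goe n y := by
  funext i j
  simp only [goe, Pi.add_apply, Matrix.add_apply]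
  split_ifs <;> ring

theorem goe_smul (c : ℝ) (x : Dis n) : goe n (c • x) = c • goe n x := by
  funext i j
  simp only [goe, Pi.smul_apply, Matrix.smul_apply, smul_eq_mul]
  split_ifs <;> ring

/-- Off the vector the renewed matrix acts as the old one. -/
theorem stp_off {e : Fin n → ℝ} (he : e ⬝ᵥ e = 1 ∨ e = 0) (d d' : Dis n) {w : Fin n → ℝ}
    (hw : e ⬝ᵥ w = 0) : goe n d *ᵥ w = goe n (stpD e d d') *ᵥ w
      + ((stpG e d d') ⬝ᵥ w - e ⬝ᵥ (goe n (stpD e d d') *ᵥ w)) • e := by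
  have hD : goe n (stpD e d d') *ᵥ w = goe n d *ᵥ w + (stpV e d d' ⬝ᵥ w) • e := by
    rw [stpD, sub_eq_add_neg, ← neg_smul, goe_add, goe_add, goe_smul, Matrix.add_mulVec,
      Matrix.add_mulVec, Matrix.smul_mulVec, goe_bil, goe_bil, hw]
    simp
  rw [hD, dotProduct_add, dotProduct_smul, smul_eq_mul]
  rcases he with he | he
  · have hG : stpG e d d' ⬝ᵥ w = e ⬝ᵥ (goe n d *ᵥ w) := by
      rw [goe_dot_comm, dotProduct_comm]
      have := stpG_of_unit he d d'
      rw [dotProduct_comm w (stpG e d d'), this, dotProduct_add, dotProduct_smul,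
        dotProduct_comm w e, hw, smul_zero, add_zero, dotProduct_comm]
    rw [hG, he]
    funext i
    simp only [Pi.add_apply, Pi.smul_apply, smul_eq_mul]
    ring
  · subst he; simp

theorem measurable_goe {α : Type*} [MeasurableSpace α] {d : α → Dis n} (hd : Measurable d)
    (i j : Fin n) : Measurable fun a => goe n (d a) i j := by
  unfold goe
  split_ifs <;> fun_prop

theorem measurable_goe_mulVec {α : Type*} [MeasurableSpace α] {d : α → Dis n} {e : α → Fin n → ℝ}
    (hd : Measurable d) (he : Measurable e) : Measurable fun a => goe n (d a) *ᵥ e a := by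
  refine measurable_pi_lambda _ fun i => ?_
  simp only [Matrix.mulVec, dotProduct]
  exact Finset.measurable_sum _ fun j _ =>
    (measurable_goe hd i j).mul ((measurable_pi_apply j).comp he)

theorem measurable_stpG {α : Type*} [MeasurableSpace α] {e : α → Fin n → ℝ} {d d' : α → Dis n}
    (he : Measurable e) (hd : Measurable d) (hd' : Measurable d') :
    Measurable fun a => stpG (e a) (d a) (d' a) := by
  have := measurable_goe_mulVec hd he
  refine measurable_pi_lambda _ fun i => ?_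
  simp only [stpG, Pi.add_apply, Pi.sub_apply, Pi.smul_apply, smul_eq_mul]
  unfold dotProduct
  fun_prop

theorem measurable_stpD {α : Type*} [MeasurableSpace α] {e : α → Fin n → ℝ} {d d' : α → Dis n}
    (he : Measurable e) (hd : Measurable d) (hd' : Measurable d') :
    Measurable fun a => stpD (e a) (d a) (d' a) := by
  have := measurable_goe_mulVec hd he
  have := measurable_goe_mulVec hd' he
  refine measurable_pi_lambda _ fun j => ?_
  rcases j with p | i <;>
  · simp only [stpD, stpV, bil, Sum.elim_inl, Sum.elim_inr, Pi.add_apply, Pi.sub_apply, Pi.smul_apply,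
      smul_eq_mul]
    unfold dotProduct
    fun_prop

end Vale.Agent.P150.Fast.Amp
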